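import Vale.Agent.P158.ChordCount.Line
import Vale.Agent.P158.OrderBox

/-!
Chord count: the cycle around a box, the ends of a line outside it, and the margin of a rigid line
against a line which avoids one of its two entrance edges.
-/

open MeasureTheory Filter Topology

namespace Vale.Agent.P158.ChordCount

open Rays (seg)

variable {δ : ℝ} {t : Conf}

/-- The edges with an end outside the box of radius `B`. -/
def outE (B : ℤ) : Set Edge := {e | ¬(InSq B (eFst e) ∧ InSq B (eSnd e))}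

theorem mem_outE {B : ℤ} {x y : V} (h : Adj x y) :
    edgeOf x y ∈ outE B ↔ ¬(InSq B x ∧ InSq B y) := by
  simp only [outE, Set.mem_ofPred_eq]
  rcases ends_edgeOf h with ⟨h1, h2⟩ | ⟨h1, h2⟩ <;> rw [h1, h2]
  rw [and_comm]

/-- The variation of a function along a walk. -/
def wVar (f : V → ℝ) {a b : V} (w : grid.Walk a b) : ℝ :=
  (w.darts.map fun d => |f d.toProd.1 - f d.toProd.2|).sum

theorem wVar_nonneg (f : V → ℝ) {a b : V} (w : grid.Walk a b) : 0 ≤ wVar f w :=
  List.sum_nonneg fun z hz => by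
    obtain ⟨d, -, rfl⟩ := List.mem_map.1 hz
    exact abs_nonneg _

theorem abs_sub_le_wVar (f : V → ℝ) {a b : V} (w : grid.Walk a b) :
    ∀ u ∈ w.support, ∀ v ∈ w.support, |f u - f v| ≤ wVar f w := by
  suffices key : (∀ u ∈ w.support, |f a - f u| ≤ wVar f w) ∧
      ∀ u ∈ w.support, ∀ v ∈ w.support, |f u - f v| ≤ wVar f w from key.2
  induction w with
  | nil => simp [wVar]
  | @cons x y z h q ih =>
    have hc : wVar f (SimpleGraph.Walk.cons h q) = |f x - f y| + wVar f q := by simp [wVar]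
    have hx : ∀ u ∈ (SimpleGraph.Walk.cons h q).support,
        |f x - f u| ≤ wVar f (SimpleGraph.Walk.cons h q) := by
      intro u hu
      rw [SimpleGraph.Walk.support_cons, List.mem_cons] at hu
      rcases hu with rfl | hu
      · simpa using wVar_nonneg f _
      · rw [hc]
        exact (abs_sub_le _ (f y) _).trans (add_le_add le_rfl (ih.1 u hu))
    refine ⟨hx, fun u hu v hv => ?_⟩
    rw [SimpleGraph.Walk.support_cons, List.mem_cons] at hu
    rcases hu with rfl | hu'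
    · exact hx v hv
    rw [SimpleGraph.Walk.support_cons, List.mem_cons] at hv
    rcases hv with rfl | hv'
    · rw [abs_sub_comm]
      exact hx u (by simp [hu'])
    · rw [hc]
      linarith [ih.2 u hu' v hv', abs_nonneg (f x - f y)]

/-- A walk around the box of radius `B`, outside it, through every vertex just outside it. -/
theorem exists_cycle {B : ℤ} (hB : 0 ≤ B) :
    ∃ (a b : V) (w : grid.Walk a b), WalkIn (outE B) w ∧ (w.length : ℤ) ≤ 8 * (B + 1) ∧
      ∀ v, OnBd (B + 1) v → v ∈ w.support := by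
  obtain ⟨L, hL⟩ : ∃ L : ℕ, (L : ℤ) = 2 * (B + 1) := ⟨(2 * (B + 1)).toNat, by omega⟩
  have side : ∀ (x u : V), (u = (1, 0) ∨ u = (0, 1) ∨ u = (-1, 0) ∨ u = (0, -1)) →
      (∀ i : ℕ, i ≤ L → ¬InSq B (x.1 + u.1 * i, x.2 + u.2 * i)) →
      ∃ w : grid.Walk x (x.1 + u.1 * L, x.2 + u.2 * L), WalkIn (outE B) w ∧ w.length = L ∧
        ∀ i : ℕ, i ≤ L → ((x.1 + u.1 * i, x.2 + u.2 * i) : V) ∈ w.support := by
    intro x u hu hout
    have hadj : ∀ i : ℕ, Adj ((x.1 + u.1 * i, x.2 + u.2 * i) : V)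
        (x.1 + u.1 * (i + 1 : ℕ), x.2 + u.2 * (i + 1 : ℕ)) := by
      intro i
      rw [adj_iff]
      rcases hu with rfl | rfl | rfl | rfl <;> push_cast <;> simp <;> omega
    obtain ⟨p, hl, -, hs, -, hS⟩ := exists_segment (t := fun _ => (0 : ℝ))
      (r := fun i : ℕ => ((x.1 + u.1 * i, x.2 + u.2 * i) : V)) hadj (Nat.zero_le L)
    have e : ((x.1 + u.1 * (0 : ℕ), x.2 + u.2 * (0 : ℕ)) : V) = x := by simp
    refine ⟨p.copy e rfl, (hS _ fun m _ hm => ?_).copy _ _, by simpa using hl, fun i hi => ?_⟩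
    · exact (mem_outE (hadj m)).2 fun h => hout m hm.le h.1
    · rw [SimpleGraph.Walk.support_copy, hs]
      exact List.mem_map.2 ⟨i, List.mem_range.2 (by omega), by simp⟩
  obtain ⟨w1, h1, l1, s1⟩ := side (-(B + 1), -(B + 1)) (1, 0) (by simp)
    fun i hi => by simp only [InSq]; omega
  obtain ⟨w2, h2, l2, s2⟩ := side (B + 1, -(B + 1)) (0, 1) (by simp)
    fun i hi => by simp only [InSq]; omega
  obtain ⟨w3, h3, l3, s3⟩ := side (B + 1, B + 1) (-1, 0) (by simp)
    fun i hi => by simp only [InSq]; omega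
  obtain ⟨w4, h4, l4, s4⟩ := side (-(B + 1), B + 1) (0, -1) (by simp)
    fun i hi => by simp only [InSq]; omega
  have e1 : ((-(B + 1) + 1 * (L : ℤ), -(B + 1) + 0 * (L : ℤ)) : V) = (B + 1, -(B + 1)) :=
    Prod.ext (by simp only; omega) (by simp)
  have e2 : ((B + 1 + 0 * (L : ℤ), -(B + 1) + 1 * (L : ℤ)) : V) = (B + 1, B + 1) :=
    Prod.ext (by simp) (by simp only; omega)
  have e3 : ((B + 1 + -1 * (L : ℤ), B + 1 + 0 * (L : ℤ)) : V) = (-(B + 1), B + 1) :=
    Prod.ext (by simp only; omega) (by simp)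
  refine ⟨_, _, ((w1.copy rfl e1).append ((w2.copy rfl e2).append ((w3.copy rfl e3).append w4))),
    ?_, ?_, fun v hv => ?_⟩
  · simp only [walkIn_append_iff]
    exact ⟨h1.copy _ _, h2.copy _ _, h3.copy _ _, h4⟩
  · simp only [SimpleGraph.Walk.length_append, SimpleGraph.Walk.length_copy, l1, l2, l3, l4]
    push_cast
    omega
  · simp only [SimpleGraph.Walk.mem_support_append_iff, SimpleGraph.Walk.support_copy]
    obtain ⟨⟨v1, v2, v3, v4⟩, hv | hv | hv | hv⟩ := hv
    · refine Or.inl ?_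
      convert s1 (v.1 + (B + 1)).toNat (by omega) using 1
      refine Prod.ext ?_ ?_ <;> simp only <;> omega
    · refine Or.inr (Or.inl ?_)
      convert s2 (v.2 + (B + 1)).toNat (by omega) using 1
      refine Prod.ext ?_ ?_ <;> simp only <;> omega
    · refine Or.inr (Or.inr (Or.inl ?_))
      convert s3 ((B + 1) - v.1).toNat (by omega) using 1
      refine Prod.ext ?_ ?_ <;> simp only <;> omega
    · refine Or.inr (Or.inr (Or.inr ?_))
      convert s4 ((B + 1) - v.2).toNat (by omega) using 1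
      refine Prod.ext ?_ ?_ <;> simp only <;> omega

/-- A line passing through the box: last index before and first index after all visits. -/
structure Thru (B : ℤ) (γ : ℤ → V) (a b : ℤ) : Prop where
  le : a ≤ b
  enter : OnBd (B + 1) (γ a)
  leave : OnBd (B + 1) (γ b)
  out₀ : ∀ m, m ≤ a → ¬InSq B (γ m)
  out₁ : ∀ m, b ≤ m → ¬InSq B (γ m)

theorem exists_thru {γ : ℤ → V} (hinj : Function.Injective γ)
    (hadj : ∀ i, Adj (γ i) (γ (i + 1))) {B i₀ : ℤ} (h₀ : InSq B (γ i₀)) :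
    ∃ a b, Thru B γ a b ∧ ∀ m, InSq B (γ m) → a < m ∧ m < b := by
  have hfin : {m : ℤ | InSq B (γ m)}.Finite :=
    (((Set.finite_Icc (-B) B).prod (Set.finite_Icc (-B) B)).preimage hinj.injOn).subset
      fun m ⟨h1, h2, h3, h4⟩ => ⟨⟨h1, h2⟩, h3, h4⟩
  have hne : hfin.toFinset.Nonempty := ⟨i₀, hfin.mem_toFinset.2 h₀⟩
  set lo := hfin.toFinset.min' hne
  set hi := hfin.toFinset.max' hne
  have hlo : InSq B (γ lo) := hfin.mem_toFinset.1 (Finset.min'_mem _ hne)
  have hhi : InSq B (γ hi) := hfin.mem_toFinset.1 (Finset.max'_mem _ hne)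
  have hb : ∀ m, InSq B (γ m) → lo ≤ m ∧ m ≤ hi := fun m hm =>
    ⟨Finset.min'_le _ _ (hfin.mem_toFinset.2 hm), Finset.le_max' _ _ (hfin.mem_toFinset.2 hm)⟩
  have edge : ∀ {u v : V}, Adj u v → InSq B u → ¬InSq B v → OnBd (B + 1) v := by
    intro u v huv hu hv
    rw [adj_iff] at huv
    simp only [OnBd, InSq] at *
    omega
  have houtl : ∀ m, m ≤ lo - 1 → ¬InSq B (γ m) := fun m hm h => by have := hb m h; omega
  have houtr : ∀ m, hi + 1 ≤ m → ¬InSq B (γ m) := fun m hm h => by have := hb m h; omega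
  have := hb i₀ h₀
  refine ⟨lo - 1, hi + 1, ⟨by omega, ?_, edge (hadj hi) hhi (houtr _ le_rfl), houtl, houtr⟩,
    fun m hm => by have := hb m hm; omega⟩
  exact edge (Adj.symm (by simpa using hadj (lo - 1))) hlo (houtl _ le_rfl)

variable {B : ℤ} {γ γ' : ℤ → V} {a b a' b' : ℤ}

theorem Thru.ray_bwd (h : Thru B γ a b) (hγ : IsBigeodesic t γ) (h0 : ∀ e, 0 ≤ t e) :
    IsRayIn t (outE B) (bwd γ a) :=
  (Rays.isRayIn_bwd hγ h0 a).mono_set h0 fun i =>
    (mem_outE ((Rays.isRayIn_bwd hγ h0 a).adj i)).2 fun hh => h.out₀ _ (by omega) hh.1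

theorem Thru.ray_fwd (h : Thru B γ a b) (hγ : IsBigeodesic t γ) (h0 : ∀ e, 0 ≤ t e) :
    IsRayIn t (outE B) (fwd γ b) :=
  (Rays.isRayIn_fwd hγ h0 b).mono_set h0 fun i =>
    (mem_outE ((Rays.isRayIn_fwd hγ h0 b).adj i)).2 fun hh => h.out₁ _ (by omega) hh.1

/-- The two Busemann functions of the parts of a line outside the box. -/
noncomputable def busA (t : Conf) (B : ℤ) (γ : ℤ → V) (a : ℤ) : V → ℝ := bus t (outE B) (bwd γ a)

/-- The forward one. -/
noncomputable def busB (t : Conf) (B : ℤ) (γ : ℤ → V) (b : ℤ) : V → ℝ := bus t (outE B) (fwd γ b)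

/-- A route made of the two ends of a line and a walk between them inside the box. -/
theorem route_le (h0 : ∀ e, 0 ≤ t e) (hγ : IsBigeodesic t γ) (h : Thru B γ a b) {S' : Set Edge}
    (hS : outE B ⊆ S') {c : ℝ}
    (H : ∀ (i j : ℤ) (w : grid.Walk (γ i) (γ j)), i ≤ a → b ≤ j → WalkIn S' w →
      seg t γ i j + c ≤ plen t w)
    {x y : V} (p : grid.Walk x y) (hp : WalkIn S' p) (hx : ConnIn (outE B) (γ a) x)
    (hy : ConnIn (outE B) (γ b) y) :
    seg t γ a b + c ≤ busA t B γ a x + plen t p + busB t B γ b y := by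
  refine le_of_forall_pos_le_add fun ε hε => ?_
  obtain ⟨n, q₀, hq₀, hv₀⟩ := ord_bus_approx (h.ray_bwd hγ h0) (z := x)
    (by simpa [bwd] using hx) (half_pos hε)
  obtain ⟨m, q₁, hq₁, hv₁⟩ := ord_bus_approx (h.ray_fwd hγ h0) (z := y)
    (by simpa [fwd] using hy) (half_pos hε)
  have h1 := H (a - n) (b + m) (q₀.append (p.append q₁.reverse)) (by omega) (by omega)
    ((walkIn_append_iff _ _).2 ⟨hq₀.mono hS, (walkIn_append_iff _ _).2 ⟨hp, hq₁.reverse.mono hS⟩⟩)
  have hpl : plen t (q₀.append (p.append q₁.reverse)) = plen t q₀ + (plen t p + plen t q₁) := by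
    rw [← plen_reverse (t := t) q₁]
    exact (plen_append q₀ (p.append q₁.reverse)).trans
      (congrArg _ (plen_append p q₁.reverse))
  replace h1 := h1.trans_eq hpl
  rw [Rays.seg_add (show a - (n : ℤ) ≤ a by omega) (show a ≤ b + m by linarith [h.le]),
    Rays.seg_add h.le (show b ≤ b + (m : ℤ) by omega)] at h1
  rw [Rays.rlen_bwd] at hv₀
  rw [Rays.rlen_fwd] at hv₁
  simp only [busA, busB] at *
  linarith

/-- Both levels' entrance edges are rigid. -/
def Rig (t : Conf) (δ : ℝ) (γ : ℤ → V) (n : ℤ) : Prop :=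
  ∀ (i j : ℤ) (x y : V) (p : grid.Walk x y), i ≤ -1 → n ≤ j → γ i = x → γ j = y →
    (WalkIn {edgeOf (γ (-1)) (γ 0)}ᶜ p ∨ WalkIn {edgeOf (γ (n - 1)) (γ n)}ᶜ p) →
    seg t γ i j + δ ≤ plen t p

/-- A rigid line and a line avoiding one of its entrance edges: their outer Busemann functions
differ by at least the margin. -/
theorem margin {k B₀ cL cR : ℤ} {R : ℕ} {n lo hi c₀ : ℤ} (h0 : ∀ e, 0 ≤ t e)
    (h : Obj t k B₀ B cL cR R γ n lo hi c₀)
    (hR : Rig t δ γ n) (hT : Thru B γ a b) (hab : a < -1 ∧ n < b) (hγ' : IsBigeodesic t γ')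
    (hT' : Thru B γ' a' b')
    (hav : ¬Uses γ' (γ (-1)) (γ 0) ∨ ¬Uses γ' (γ (n - 1)) (γ n))
    {u v : V} (Γ : grid.Walk u v) (hΓ : WalkIn (outE B) Γ)
    (hcov : ∀ z, OnBd (B + 1) z → z ∈ Γ.support) :
    δ ≤ wVar (fun z => busA t B γ a z - busA t B γ' a' z) Γ +
      wVar (fun z => busB t B γ b z - busB t B γ' b' z) Γ := by
  classical
  have hconn : ∀ z z', OnBd (B + 1) z → OnBd (B + 1) z' → ConnIn (outE B) z z' := fun z z' hz hz' =>
    ConnIn.trans (ConnIn.symm ⟨Γ.takeUntil z (hcov z hz),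
      fun d hd => hΓ d (Γ.darts_takeUntil_subset_darts _ hd)⟩)
      ⟨Γ.takeUntil z' (hcov z' hz'), fun d hd => hΓ d (Γ.darts_takeUntil_subset_darts _ hd)⟩
  have piece : ∀ {η : ℤ → V} {a b : ℤ}, (∀ i, Adj (η i) (η (i + 1))) → a ≤ b →
      ∃ p : grid.Walk (η a) (η b), plen t p = seg t η a b ∧
        ∀ S : Set Edge, (∀ m, edgeOf (η m) (η (m + 1)) ∈ S) → WalkIn S p := by
    intro η a b hadj hle
    obtain ⟨L, rfl⟩ : ∃ L : ℕ, b = a + L := ⟨(b - a).toNat, by omega⟩
    obtain ⟨p, hp, -, hS⟩ := seg_walk t hadj a L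
    exact ⟨p, hp, fun S hm => hS S fun m _ _ => hm m⟩
  have z₁ : busA t B γ a (γ a) = 0 := by
    simpa [busA, bwd] using Rays.bus_zero h0 (hT.ray_bwd h.line h0)
  have z₂ : busB t B γ b (γ b) = 0 := by
    simpa [busB, fwd] using Rays.bus_zero h0 (hT.ray_fwd h.line h0)
  have z₃ : busA t B γ' a' (γ' a') = 0 := by
    simpa [busA, bwd] using Rays.bus_zero h0 (hT'.ray_bwd hγ' h0)
  have z₄ : busB t B γ' b' (γ' b') = 0 := by
    simpa [busB, fwd] using Rays.bus_zero h0 (hT'.ray_fwd hγ' h0)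
  obtain ⟨p, hp, -⟩ := piece (η := γ) h.line.adj hT.le
  obtain ⟨q, hq, hqS⟩ := piece (η := γ') hγ'.adj hT'.le
  have h₂ := route_le h0 hγ' hT' (S' := Set.univ) (c := 0) (Set.subset_univ _)
    (fun i j w hi hj _ => by
      rw [add_zero, ← Rays.bigeo_T hγ' h0 (show i ≤ j by linarith [hT'.le])]
      exact T_le h0 w)
    p (walkIn_univ _) (hconn _ _ hT'.enter hT.enter) (hconn _ _ hT'.leave hT.leave)
  have h₁ : seg t γ a b + δ ≤ busA t B γ a (γ' a') + plen t q + busB t B γ b (γ' b') := by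
    have out : ∀ {x y : V}, Adj x y → InSq B x → InSq B y →
        outE B ⊆ ({edgeOf x y} : Set Edge)ᶜ := fun hxy hx hy e he hee => by
      rw [Set.mem_singleton_iff.1 hee, mem_outE hxy] at he
      exact he ⟨hx, hy⟩
    rcases hav with hav | hav
    · exact route_le h0 h.line hT (out (by simpa using h.line.adj (-1)) h.mem₀ h.mem)
        (fun i j w hi hj hw => hR i j _ _ w (by omega) (by omega) rfl rfl (.inl hw))
        q (hqS _ fun m hm => hav ⟨m, hm⟩) (hconn _ _ hT.enter hT'.enter)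
        (hconn _ _ hT.leave hT'.leave)
    · exact route_le h0 h.line hT (out (by simpa using h.line.adj (n - 1)) h.mem₁ h.mem₂)
        (fun i j w hi hj hw => hR i j _ _ w (by omega) (by omega) rfl rfl (.inr hw))
        q (hqS _ fun m hm => hav ⟨m, hm⟩) (hconn _ _ hT.enter hT'.enter)
        (hconn _ _ hT.leave hT'.leave)
  rw [hp] at h₂
  rw [hq] at h₁
  have a₁ := abs_sub_le_wVar (fun z => busA t B γ a z - busA t B γ' a' z) Γ _ (hcov _ hT'.enter)
    _ (hcov _ hT.enter)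
  have a₂ := abs_sub_le_wVar (fun z => busB t B γ b z - busB t B γ' b' z) Γ _ (hcov _ hT'.leave)
    _ (hcov _ hT.leave)
  simp only [z₁, z₂, z₃, z₄] at a₁ a₂
  linarith [(abs_le.1 a₁).2, (abs_le.1 a₂).2]

end Vale.Agent.P158.ChordCount
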