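import Vale.Agent.P158.ChordCount.Events
import Vale.Agent.P158.Site2

/-!
Chord count: in the good event every chord gives objects at a positive fraction of the pairs of
levels of the windows of one frame, and different chords give different objects.
-/

open MeasureTheory Filter Topology
open scoped ENNReal

namespace Vale.Agent.P158.ChordCount

theorem frame_InSq {σ : LatSym} (hσ : σ ∈ frameSyms) (B : ℤ) (v : V) :
    InSq B (σ.vmap v) ↔ InSq B v := by
  simp only [frameSyms, List.mem_cons, List.not_mem_nil, or_false] at hσ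
  rcases hσ with rfl | rfl | rfl | rfl | rfl | rfl <;>
    simp [InSq, LatSym.comp, negSym, negXSym] <;> omega

/-- The chord `l` gives an object with the given key at the given levels of the given frame. -/
def HasObj (t : Conf) (N : ℕ) (B B' : ℤ) (r₁ : ℝ) (R : ℕ) (σ : LatSym) (k cL cR : ℤ)
    (l : List V) (o : Key) : Prop :=
  r₁ ≤ σ.symm.act t (eL o) ∧ r₁ ≤ σ.symm.act t (eR o) ∧
    ∃ γ i₀ i₁ iL n lo hi c₀, LineChord t N N γ i₀ i₁ ∧
      l = (List.range ((i₁ - i₀).toNat + 1)).map (fun m : ℕ => γ (i₀ + m)) ∧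
      Obj (σ.symm.act t) k B B' cL cR R (fun m => σ.vmap (γ (m + iL))) n lo hi c₀ ∧
      key (fun m => σ.vmap (γ (m + iL))) n = o

theorem HasObj.heavy {t : Conf} {N : ℕ} {B B' : ℤ} {r₁ : ℝ} {R : ℕ} {σ : LatSym} {k cL cR : ℤ}
    {l : List V} {o : Key} (h : HasObj t N B B' r₁ R σ k cL cR l o) :
    σ.symm.act t ∈ heavySite r₁ k B B' cL cR R o := by
  obtain ⟨h1, h2, γ, i₀, i₁, iL, n, lo, hi, c₀, -, -, h3, h4⟩ := h
  exact ⟨h1, h2, _, n, lo, hi, c₀, h3, h4⟩

/-- The object determines the chord. -/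
theorem HasObj.unique {κ : ℝ} {t : Conf} {N : ℕ} {B B' : ℤ} {r₁ : ℝ} {R : ℕ} {σ : LatSym}
    {k cL cR : ℤ} {l l' : List V} {o : Key} (hσ : σ ∈ frameSyms)
    (hG : GoodG κ (σ.symm.act t)) (hk : k = 0 ∨ k = 1) (hNB : (N : ℤ) ≤ B)
    (hL : cL ≤ -2 * (N : ℤ)) (hR : 2 * (N : ℤ) < cR - R)
    (h : HasObj t N B B' r₁ R σ k cL cR l o) (h' : HasObj t N B B' r₁ R σ k cL cR l' o) :
    l = l' := by
  obtain ⟨-, -, γ, i₀, i₁, iL, n, lo, hi, c₀, hc, rfl, ho, rfl⟩ := h
  obtain ⟨-, -, γ', j₀, j₁, jL, m, lo', hi', c₀', hc', rfl, ho', hkey⟩ := h'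
  simp only [key, Prod.mk.injEq] at hkey
  obtain ⟨⟨e1, e2⟩, e3, e4⟩ := hkey
  obtain ⟨rfl, he⟩ := ho.eq_of_uses hG (by omega) ho'
    ⟨-1, by rw [neg_add_cancel]; simp only [e1, e2]⟩
    ⟨m - 1, by rw [sub_add_cancel]; simp only [e3, e4]⟩
    ⟨-1, by rw [neg_add_cancel]; simp only [e1, e2]⟩
    ⟨n - 1, by rw [sub_add_cancel]; simp only [e3, e4]⟩
  have he' : ∀ i, 0 ≤ i → i < n → γ' (i + jL) = γ (i + iL) := fun i h1 h2 =>
    σ.vmap.injective (he i (by omega) h2.le)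
  have win : ∀ i, InSq N (γ (i + iL)) → 0 ≤ i ∧ i < n := fun i hi' =>
    ho.between hk hNB hL hR ((frame_InSq hσ _ _).2 hi')
  have win' : ∀ i, InSq N (γ' (i + jL)) → 0 ≤ i ∧ i < n := fun i hi' =>
    ho'.between hk hNB hL hR ((frame_InSq hσ _ _).2 hi')
  have w0 := win (i₀ - iL) (by rw [sub_add_cancel]; exact hc.mem₀)
  have w1 := win (i₁ - iL) (by rw [sub_add_cancel]; exact hc.mem₁)
  have v0 := win' (j₀ - jL) (by rw [sub_add_cancel]; exact hc'.mem₀)
  have v1 := win' (j₁ - jL) (by rw [sub_add_cancel]; exact hc'.mem₁)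
  have a0 := hc'.only (i₀ - iL + jL) (by rw [he' _ w0.1 w0.2, sub_add_cancel]; exact hc.mem₀)
  have a1 := hc'.only (i₁ - iL + jL) (by rw [he' _ w1.1 w1.2, sub_add_cancel]; exact hc.mem₁)
  have b0 := hc.only (j₀ - jL + iL) (by rw [← he' _ v0.1 v0.2, sub_add_cancel]; exact hc'.mem₀)
  have b1 := hc.only (j₁ - jL + iL) (by rw [← he' _ v1.1 v1.2, sub_add_cancel]; exact hc'.mem₁)
  have e : (i₁ - i₀).toNat = (j₁ - j₀).toNat := by omega
  rw [← e]
  refine List.map_congr_left fun x hx => ?_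
  rw [List.mem_range] at hx
  rw [show j₀ + (x : ℤ) = (i₀ + (x : ℤ) - iL) + jL by omega,
    he' _ (by omega) (by omega), sub_add_cancel]

/-- The levels of the windows. -/
noncomputable def winL (γ₀ : ℝ) (K N : ℕ) : Finset ℤ :=
  Finset.Icc (-⌊γ₀ * ((K * N : ℕ) : ℝ) / 2⌋) (-(3 * (N : ℤ) + 1))

/-- The right window. -/
noncomputable def winR (γ₀ : ℝ) (K N : ℕ) : Finset ℤ :=
  Finset.Icc (3 * (N : ℤ) + 1) ⌊γ₀ * ((K * N : ℕ) : ℝ) / 2⌋

theorem exists_objects {γ₀ C r₁ ε : ℝ} {R K N : ℕ} {t : Conf} (h0 : ∀ e, 0 ≤ t e) (hγ₀ : 0 < γ₀)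
    (hγ₁ : γ₀ ≤ 1) (hK : 32 ≤ γ₀ * K) (hε : ε ≤ γ₀ / 32) (hN : 1 ≤ N) (hRN : R < N)
    (hok : ChordOK γ₀ C r₁ ε R (K * N) t) {l : List V} (hl : l ∈ lineChords t N N) :
    ∃ σ ∈ frameSyms, ∃ k : ℤ, (k = 0 ∨ k = 1) ∧ ∃ (Lg Rg : Finset ℤ),
      Lg ⊆ winL γ₀ K N ∧ Rg ⊆ winR γ₀ K N ∧
      γ₀ * ((K * N : ℕ) : ℝ) / 4 ≤ Lg.card ∧ γ₀ * ((K * N : ℕ) : ℝ) / 4 ≤ Rg.card ∧
      ∀ cL ∈ Lg, ∀ cR ∈ Rg, ∃ o : Key,
        (InSq (((⌈C⌉₊ + 1) * (K * N) : ℕ) : ℤ) o.1.1 ∧
          InSq (((⌈C⌉₊ + 1) * (K * N) : ℕ) : ℤ) o.1.2 ∧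
          InSq (((⌈C⌉₊ + 1) * (K * N) : ℕ) : ℤ) o.2.1 ∧
          InSq (((⌈C⌉₊ + 1) * (K * N) : ℕ) : ℤ) o.2.2) ∧
        HasObj t N ((K * N : ℕ) : ℤ) (((⌈C⌉₊ + 1) * (K * N) : ℕ) : ℤ) r₁ R σ k cL cR l o := by
  obtain ⟨γ, i₀, i₁, hc, rfl⟩ := hl
  set B : ℕ := K * N with hB
  set Q : ℕ := ⌈C⌉₊ + 1 with hQ
  have hKN : 32 * (N : ℝ) ≤ γ₀ * B := by
    rw [hB, Nat.cast_mul, ← mul_assoc]
    exact mul_le_mul_of_nonneg_right hK (Nat.cast_nonneg N)
  have hBR : γ₀ * (B : ℝ) ≤ B := mul_le_of_le_one_left (Nat.cast_nonneg B) hγ₁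
  have hNB : (N : ℤ) ≤ B := by
    have h : (N : ℝ) ≤ B := le_trans (by linarith [(Nat.cast_nonneg N : (0 : ℝ) ≤ N)]) hBR
    exact_mod_cast h
  have hinj := hc.line.inj
  have hadj := hc.line.adj
  have hmid : InSq B (γ i₀) := by
    have := hc.mem₀
    unfold InSq at this ⊢
    omega
  obtain ⟨a, b, hT, hab⟩ := exists_thru hinj hadj hmid
  -- first and last visit of the large box
  obtain ⟨lo, hi, hlo, hhi, hwin⟩ : ∃ lo hi, InSq B (γ lo) ∧ InSq B (γ hi) ∧
      ∀ m, InSq B (γ m) → lo ≤ m ∧ m ≤ hi := by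
    have hfin : {m : ℤ | InSq B (γ m)}.Finite :=
      (Set.finite_Icc a b).subset fun m hm => ⟨(hab m hm).1.le, (hab m hm).2.le⟩
    have hne : hfin.toFinset.Nonempty := ⟨i₀, hfin.mem_toFinset.2 hmid⟩
    exact ⟨_, _, hfin.mem_toFinset.1 (Finset.min'_mem _ hne),
      hfin.mem_toFinset.1 (Finset.max'_mem _ hne), fun m hm =>
        ⟨Finset.min'_le _ _ (hfin.mem_toFinset.2 hm), Finset.le_max' _ _ (hfin.mem_toFinset.2 hm)⟩⟩
  obtain ⟨hw0, hw1⟩ := hwin i₀ hmid
  have hlh : lo ≤ hi := hw0.trans hw1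
  have bd : ∀ {u v : V}, Adj u v → InSq B u → ¬InSq B v → OnBd B u := by
    intro u v huv hu hv
    rw [adj_iff] at huv
    simp only [OnBd, InSq] at *
    omega
  have hbd₀ : OnBd B (γ lo) := bd (Adj.symm (by simpa using hadj (lo - 1))) hlo
    fun h => by have := hwin _ h; omega
  have hbd₁ : OnBd B (γ hi) := bd (hadj hi) hhi fun h => by have := hwin _ h; omega
  obtain ⟨hlen, σ, hσ, k, hk, hl0, hl1, hbad, -⟩ := hok γ lo hi
    ⟨hlh, fun m _ _ => hadj m, hinj.injOn, hc.line.sum_eq_T h0 hlh⟩ hbd₀ hbd₁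
    ⟨i₀, hw0, hw1, by
      have hf : (N : ℤ) ≤ ⌊γ₀ * (B : ℝ) / 8⌋ := by
        rw [Int.le_floor]; push_cast; linarith [(Nat.cast_nonneg N : (0 : ℝ) ≤ N)]
      have := hc.mem₀
      unfold InSq at this ⊢
      omega⟩
  have hk1 : |k| ≤ 1 := by rcases hk with rfl | rfl <;> simp
  set η : ℤ → V := fun m => σ.vmap (γ m) with hη
  have hηadj : ∀ i, Adj (η i) (η (i + 1)) := fun i => (σ.adj_map _ _).2 (hadj i)
  have hηline : IsBigeodesic (σ.symm.act t) η := by
    rw [LatSym.isBigeodesic_act]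
    simpa [hη, LatSym.symm] using hc.line
  have hwt : ∀ i, wt (σ.symm.act t) (η i) (η (i + 1)) = wt t (γ i) (γ (i + 1)) := fun i => by
    rw [LatSym.wt_act σ.symm t (hηadj i)]
    simp [hη, LatSym.symm]
  -- vertices between the visits stay in the larger box
  have hbox : ∀ m, lo ≤ m → m ≤ hi → InSq ((Q * B : ℕ) : ℤ) (η m) := by
    intro m h1 h2
    have hQB : ((hi - lo : ℤ) : ℝ) + B ≤ ((Q * B : ℕ) : ℝ) := by
      have : (C : ℝ) * B ≤ (⌈C⌉₊ : ℝ) * B :=
        mul_le_mul_of_nonneg_right (Nat.le_ceil C) (Nat.cast_nonneg B)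
      rw [hQ]; push_cast
      push_cast at hlen
      linarith
    have hQB' : hi - lo + B ≤ ((Q * B : ℕ) : ℤ) := by exact_mod_cast hQB
    have d0 := site_lev_le (k := 0) (by simp) hadj h1
    refine (frame_InSq hσ _ _).2 ?_
    have h8 := hlo
    have d2 : |(γ m).2 - (γ lo).2| ≤ m - lo := by
      obtain ⟨L, hL⟩ : ∃ L : ℕ, m = lo + L := ⟨(m - lo).toNat, by omega⟩
      have key : ∀ L : ℕ, |(γ (lo + L)).2 - (γ lo).2| ≤ L := fun L => by
        induction L with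
        | zero => simp
        | succ L ih =>
          have := (abs_sub_le_of_adj (hadj (lo + L))).2
          rw [abs_le] at this ih ⊢
          push_cast
          rw [← add_assoc]
          omega
      have := key L
      rw [← hL] at this
      omega
    simp only [lev, zero_mul, add_zero, abs_le] at d0 d2
    unfold InSq at h8 ⊢
    omega
  classical
  -- the good levels
  set good : ℤ → Prop := fun c => ∃ i j, Cross k η lo hi c R i j ∧
    r₁ ≤ wt t (γ (i - 1)) (γ i) with hgood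
  have hB0 : (0 : ℝ) ≤ γ₀ * B := by positivity
  set W := ⌊γ₀ * (B : ℝ) / 2⌋ with hW
  have hW2 := Int.sub_one_lt_floor (γ₀ * (B : ℝ) / 2)
  have hW3 := Int.floor_le (γ₀ * (B : ℝ) / 2)
  rw [← hW] at hW2 hW3
  have hfinbad : {c : ℤ | |(c : ℝ)| ≤ γ₀ * B / 2 ∧ ¬good c}.Finite :=
    (Set.finite_Icc (-W) W).subset fun c hc => by
      have h := abs_le.1 hc.1
      refine ⟨?_, Int.le_floor.2 h.2⟩
      rw [neg_le, hW, Int.le_floor]; push_cast; linarith
  have hcount : ∀ s : Finset ℤ, (∀ c ∈ s, |(c : ℝ)| ≤ γ₀ * B / 2) →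
      (s.card : ℝ) - γ₀ * B / 32 ≤ (s.filter good).card := by
    intro s hs
    have h1 : (s.filter fun c => ¬good c).card ≤
        {c : ℤ | |(c : ℝ)| ≤ γ₀ * B / 2 ∧ ¬good c}.ncard := by
      rw [← Set.ncard_coe_finset]
      refine Set.ncard_le_ncard (fun c hc => ?_) hfinbad
      rw [Finset.mem_coe, Finset.mem_filter] at hc
      exact ⟨hs c hc.1, hc.2⟩
    have h2 : (({c : ℤ | |(c : ℝ)| ≤ γ₀ * B / 2 ∧ ¬good c}.ncard : ℕ) : ℝ) ≤ ε * B := hbad
    have h3 : ((s.filter good).card : ℝ) + (s.filter fun c => ¬good c).card = s.card := by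
      exact_mod_cast Finset.card_filter_add_card_filter_not good
    have h4 : ((s.filter fun c => ¬good c).card : ℝ) ≤ ε * B :=
      le_trans (by exact_mod_cast h1) h2
    have h5 : ε * B ≤ γ₀ / 32 * B := mul_le_mul_of_nonneg_right hε (Nat.cast_nonneg B)
    linarith
  have hN0 : (1 : ℝ) ≤ N := by exact_mod_cast hN
  have habs : ∀ c : ℤ, -W ≤ c → c ≤ W → |(c : ℝ)| ≤ γ₀ * B / 2 := fun c h1 h2 => by
    have h1' : -(W : ℝ) ≤ c := by exact_mod_cast h1
    have h2' : (c : ℝ) ≤ W := by exact_mod_cast h2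
    rw [abs_le]; constructor <;> linarith
  have h3N : 3 * (N : ℤ) ≤ W := by
    rw [hW, Int.le_floor]; push_cast; linarith
  refine ⟨σ, hσ, k, hk, (winL γ₀ K N).filter good, (winR γ₀ K N).filter good,
    Finset.filter_subset _ _, Finset.filter_subset _ _, ?_, ?_, ?_⟩
  · refine le_trans ?_ (hcount _ fun c hc => ?_)
    · rw [winL, Int.card_Icc]
      have e : (((-(3 * (N : ℤ) + 1) + 1 - -W).toNat : ℤ) : ℝ) = (W : ℝ) - 3 * N := by
        rw [Int.toNat_of_nonneg (by omega)]; push_cast; ring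
      rw [Int.cast_natCast] at e
      rw [← hW, e]
      linarith
    · rw [winL, Finset.mem_Icc, ← hW] at hc
      exact habs c (by omega) (by omega)
  · refine le_trans ?_ (hcount _ fun c hc => ?_)
    · rw [winR, Int.card_Icc]
      have e : (((W + 1 - (3 * (N : ℤ) + 1)).toNat : ℤ) : ℝ) = (W : ℝ) - 3 * N := by
        rw [Int.toNat_of_nonneg (by omega)]; push_cast; ring
      rw [Int.cast_natCast] at e
      rw [← hW, e]
      linarith
    · rw [winR, Finset.mem_Icc, ← hW] at hc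
      exact habs c (by omega) (by omega)
  intro cL hcL cR hcR
  rw [winL, Finset.mem_filter, Finset.mem_Icc, ← hW] at hcL
  rw [winR, Finset.mem_filter, Finset.mem_Icc, ← hW] at hcR
  obtain ⟨⟨L1, L2⟩, iL, jL, hL, heL⟩ := hcL
  obtain ⟨⟨R1, R2⟩, iR, jR, hR, heR⟩ := hcR
  have step : ∀ {x y : ℤ}, x ≤ y → |lev k (η y) - lev k (η x)| ≤ y - x := fun h =>
    site_lev_le hk1 hηadj h
  -- after the first visit of a level the path stays above the level less `R`
  have aft : ∀ {c i j : ℤ}, Cross k η lo hi c R i j → ∀ m, i ≤ m → m ≤ hi →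
      c - R ≤ lev k (η m) ∧ (m ≤ j → lev k (η m) ≤ c + R) := by
    intro c i j h m h1 h2
    by_cases hm : m ≤ j
    · have := abs_le.1 (step h1)
      have := h.first
      have := h.len
      exact ⟨by omega, fun _ => by omega⟩
    · have := h.after m (not_le.1 hm) h2
      exact ⟨by omega, fun h => absurd h hm⟩
  have hLR : jL < iR := by
    by_contra h
    rcases lt_or_ge iR iL with h' | h'
    · have := hL.before iR hR.lo.le h'
      rw [hR.first] at this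
      omega
    · have := (aft hL iR h' (by linarith [hR.le, hR.hi])).2 (not_lt.1 h)
      rw [hR.first] at this
      omega
  have hiLR : iL < iR := lt_of_le_of_lt hL.le hLR
  have prev : ∀ {c i j : ℤ}, Cross k η lo hi c R i j → lev k (η (i - 1)) = c - 1 := by
    intro c i j h
    have := h.before (i - 1) (by linarith [h.lo]) (by omega)
    have h2 := abs_le.1 (step (show i - 1 ≤ i by omega))
    have := h.first
    omega
  have l0 : -(2 * (N : ℤ)) ≤ lev k (η i₀) ∧ lev k (η i₀) ≤ 2 * N := by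
    have hm := (frame_InSq hσ (N : ℤ) (γ i₀)).2 hc.mem₀
    obtain ⟨h1, h2, h3, h4⟩ := hm
    rcases hk with rfl | rfl <;> simp only [lev, hη] <;> omega
  have c1 : iL ≤ i₀ := by
    by_contra h
    have := hL.before i₀ hw0 (not_le.1 h)
    omega
  have c2 : i₀ < iR := by
    by_contra h
    have := (aft hR i₀ (not_lt.1 h) hw1).1
    omega
  have lo_lev : lev k (η lo) < cL - R - 1 := by
    have h1 : (lev k (η lo) : ℝ) ≤ -γ₀ * B := hl0
    have h2 : -(W : ℝ) ≤ cL := by exact_mod_cast L1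
    have h3 : (R : ℝ) + 1 ≤ N := by exact_mod_cast hRN
    have : (lev k (η lo) : ℝ) < (cL : ℝ) - R - 1 := by linarith
    exact_mod_cast this
  have hi_lev : cR < lev k (η hi) := by
    have h1 : γ₀ * B ≤ (lev k (η hi) : ℝ) := hl1
    have h2 : (cR : ℝ) ≤ W := by exact_mod_cast R2
    have : (cR : ℝ) < (lev k (η hi) : ℝ) := by linarith
    exact_mod_cast this
  have hin : ∀ m, lo ≤ m + iL → m + iL ≤ hi → InSq ((Q * B : ℕ) : ℤ) (σ.vmap (γ (m + iL))) :=
    fun m h1 h2 => hbox _ h1 h2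
  have hlo' := hL.lo
  have hhi' := hR.hi
  have hRle := hR.le
  have hLle := hL.le
  refine ⟨key (fun m => σ.vmap (γ (m + iL))) (iR - iL),
    ⟨hin _ (by omega) (by omega), hin _ (by omega) (by omega), hin _ (by omega) (by omega),
      hin _ (by omega) (by omega)⟩, ?_, ?_, γ, i₀, i₁, iL, iR - iL, lo - iL, hi - iL, i₀ - iL,
    hc, rfl, ?_, rfl⟩
  · have h := hwt (iL - 1)
    rw [sub_add_cancel] at h
    simp only [key, eL, show (-1 : ℤ) + iL = iL - 1 by ring, zero_add]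
    exact heL.trans h.ge
  · have h := hwt (iR - 1)
    rw [sub_add_cancel] at h
    simp only [key, eR, show iR - iL - 1 + iL = iR - 1 by ring, show iR - iL + iL = iR by ring]
    exact heR.trans h.ge
  refine ⟨hηline.reindex iL, hin _ (by omega) (by omega), hin _ (by omega) (by omega),
    hin _ (by omega) (by omega), hin _ (by omega) (by omega), ?_, ?_, ?_, ?_, by omega, by omega,
    fun m hm => ?_, by omega, by omega, ?_, fun m h1 h2 => hL.before _ (by omega) (by omega),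
    fun m h1 h2 => (aft hL (m + iL) (by omega) (by omega)).1,
    fun m h1 h2 => hR.before _ (by omega) (by omega),
    fun m h1 h2 => (aft hR (m + iL) (by omega) (by omega)).1, ?_, ?_⟩
  · simpa [hη, show (-1 : ℤ) + iL = iL - 1 by ring] using prev hL
  · simpa [hη] using hL.first
  · simpa [hη, show iR - iL - 1 + iL = iR - 1 by ring] using prev hR
  · simpa [hη] using hR.first
  · have := hwin _ ((frame_InSq hσ _ _).1 hm)
    omega
  · rw [sub_add_cancel]
    exact (frame_InSq hσ _ _).2 hmid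
  · rw [sub_add_cancel]; exact lo_lev
  · rw [sub_add_cancel]; exact hi_lev

end Vale.Agent.P158.ChordCount
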