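import Vale.Agent.P158.ChordCount.Box

/-!
Chord count: in one configuration the rigid objects of a pair of levels are linearly many in the
radius of the box. Distinct objects lie in different classes, so the ends of their lines are
interleaved on far boxes, and consecutive ones differ in an outer Busemann function on the cycle
around the box by the margin.
-/

open MeasureTheory Filter Topology

namespace Vale.Agent.P158.ChordCount

open Rays (seg)

variable {κ δ : ℝ} {t : Conf} {k B B' cL cR : ℤ} {R : ℕ}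
  {γ γ' : ℤ → V} {n m lo hi c₀ lo' hi' c₀' : ℤ}

/-- Cutting off a prefix does not change the exit from far boxes. -/
theorem exitPos_tail {r : ℕ → V} (hr : Function.Injective r) (m : ℕ) :
    ∀ᶠ N in atTop, exitPos N (Rays.tail m r) = exitPos N r := by
  filter_upwards [(eventually_all_finite (Set.finite_Iic m)).2 fun i _ => eventually_inBox (r i)]
    with N hN
  have hs := boxIdx_spec hr N
  have hlt : m < boxIdx N r := by
    by_contra h
    exact hs (hN _ (not_lt.1 h))
  have hinj : Function.Injective (Rays.tail m r) := fun a b h => Nat.add_left_cancel (hr h)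
  have e : m + boxIdx N (Rays.tail m r) = boxIdx N r := by
    refine le_antisymm ?_ (Nat.sInf_le (boxIdx_spec hinj N))
    have : boxIdx N (Rays.tail m r) ≤ boxIdx N r - m :=
      Nat.sInf_le (show ¬InSq (N - 1) (r (m + (boxIdx N r - m))) by
        rwa [Nat.add_sub_cancel' hlt.le])
    omega
  simp only [exitPos, boxExit, Rays.tail, e]

/-- Lines of different classes have interleaved ends on far boxes. -/
theorem eventually_alt (hN : NiceG κ t) (hγ : IsBigeodesic t γ) (hγ' : IsBigeodesic t γ')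
    (h : ¬SameClass t γ γ') :
    ∀ᶠ N in atTop, Alt (exitPos N (bwd γ 0)) (exitPos N (fwd γ 0)) (exitPos N (bwd γ' 0))
      (exitPos N (fwd γ' 0)) := by
  have h0 := hN.good.nonneg
  have hc : ∀ a b : V, ConnIn Set.univ a b := connIn_univ
  have ra := Rays.isRayIn_bwd hγ h0 0
  have rb := Rays.isRayIn_fwd hγ h0 0
  have ra' := Rays.isRayIn_bwd hγ' h0 0
  have rb' := Rays.isRayIn_fwd hγ' h0 0
  have e := Rays.bus_line_nonneg hγ h0 0
  have e' := Rays.bus_line_nonneg hγ' h0 0
  by_contra hne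
  rw [not_eventually] at hne
  have h23 : ∃ᶠ N in atTop,
      Alt (exitPos N (bwd γ 0)) (exitPos N (bwd γ' 0)) (exitPos N (fwd γ 0))
          (exitPos N (fwd γ' 0)) ∨
        Alt (exitPos N (bwd γ 0)) (exitPos N (fwd γ' 0)) (exitPos N (fwd γ 0))
          (exitPos N (bwd γ' 0)) :=
    hne.mono fun N hN => (alt_trichotomy _ _ _ _).resolve_left hN
  rcases frequently_or_distrib.1 h23 with hf | hf
  · have hf' : ∃ᶠ N in atTop, Alt (exitPos N (bwd γ 0)) (exitPos N (bwd γ' 0))
        (exitPos N (fwd γ' 0)) (exitPos N (fwd γ 0)) :=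
      hf.mono fun N hN => by unfold Alt at hN ⊢; omega
    refine h (.inr (bd2_of_crossed hN hγ hγ'.rev
      (C := bus t Set.univ (fwd γ' 0) (γ 0) + bus t Set.univ (fwd γ 0) (γ 0)) fun z => ?_))
    have := crossed_excess_box h0 (bwd γ 0) (fwd γ' 0) (fwd γ 0) (bwd γ' 0) ra rb' rb ra' hc 0 0
      (fun c => by linarith [e c]) (fun c => by linarith [e' c]) hf' z (γ 0)
    rw [fwd_revLine, neg_zero]
    linarith
  · have hf' : ∃ᶠ N in atTop, Alt (exitPos N (bwd γ 0)) (exitPos N (fwd γ' 0))
        (exitPos N (bwd γ' 0)) (exitPos N (fwd γ 0)) :=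
      hf.mono fun N hN => by unfold Alt at hN ⊢; omega
    refine h (.inl (bd2_of_crossed hN hγ hγ'
      (C := bus t Set.univ (bwd γ' 0) (γ 0) + bus t Set.univ (fwd γ 0) (γ 0)) fun z => ?_))
    have := crossed_excess_box h0 (bwd γ 0) (bwd γ' 0) (fwd γ 0) (fwd γ' 0) ra ra' rb rb' hc 0 0
      (fun c => by linarith [e c]) (fun c => by linarith [e' c]) hf' z (γ 0)
    linarith

theorem rigid_first (h0 : ∀ e, 0 ≤ t e) (h : Obj t k B B' cL cR R γ n lo hi c₀)
    (hR : Rig t δ γ n) : RigidEdge t δ γ := by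
  intro a b x z p hx hz hp
  subst hx hz
  rw [Rays.bigeo_T h.line h0 (by omega)]
  rcases le_total n b with hb | hb
  · exact hR _ _ _ _ p (by omega) hb rfl rfl (.inl hp)
  obtain ⟨L, hL⟩ : ∃ L : ℕ, n = b + L := ⟨(n - b).toNat, by omega⟩
  obtain ⟨q, hq, -, hqS⟩ := seg_walk t h.line.adj (b : ℤ) L
  have hav : WalkIn {edgeOf (γ (-1)) (γ 0)}ᶜ q := hqS _ fun m hm _ he => by
    rcases (edgeOf_eq_iff (h.line.adj m) (by simpa using h.line.adj (-1))).1
      (Set.mem_singleton_iff.1 he) with ⟨h1, -⟩ | ⟨h1, h2⟩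
    · have := h.line.inj h1; omega
    · have := h.line.inj h1; have := h.line.inj h2; omega
  have h1 := hR (-((a : ℤ) + 1)) (b + L) _ _ (p.append q) (by omega) (by omega) rfl rfl
    (.inl ((walkIn_append_iff _ _).2 ⟨hp, hav⟩))
  rw [plen_append, hq, Rays.seg_add (show -((a : ℤ) + 1) ≤ b by omega)
    (show (b : ℤ) ≤ b + L by omega)] at h1
  linarith

theorem rigid_last (h0 : ∀ e, 0 ≤ t e) (h : Obj t k B B' cL cR R γ n lo hi c₀)
    (hR : Rig t δ γ n) : RigidEdge t δ (reLine γ n) := by
  intro a b x z p hx hz hp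
  subst hx hz
  simp only [reLine, zero_add, show (-1 : ℤ) + n = n - 1 by ring] at p hp ⊢
  rw [Rays.bigeo_T h.line h0 (by omega)]
  rcases le_total (-((a : ℤ) + 1) + n) (-1) with ha | ha
  · exact hR _ _ _ _ p ha (by omega) rfl rfl (.inr hp)
  obtain ⟨L, hL⟩ : ∃ L : ℕ, -((a : ℤ) + 1) + n = -1 + L :=
    ⟨(-((a : ℤ) + 1) + n + 1).toNat, by omega⟩
  obtain ⟨q, hq, -, hqS⟩ := seg_walk t h.line.adj (-1) L
  have hav : WalkIn {edgeOf (γ (n - 1)) (γ n)}ᶜ q := hqS _ fun m _ hm he => by
    rcases (edgeOf_eq_iff (h.line.adj m) (by simpa using h.line.adj (n - 1))).1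
      (Set.mem_singleton_iff.1 he) with ⟨h1, -⟩ | ⟨h1, h2⟩
    · have := h.line.inj h1; omega
    · have := h.line.inj h1; have := h.line.inj h2; omega
  have e : γ (-1 + (L : ℤ)) = γ (-((a : ℤ) + 1) + n) := by rw [hL]
  have h1 := hR (-1) ((b : ℤ) + n) _ _ ((q.copy rfl e).append p) le_rfl (by omega) rfl rfl
    (.inr ((walkIn_append_iff _ _).2 ⟨hav.copy _ _, hp⟩))
  rw [plen_append, show plen t (q.copy rfl e) = plen t q by simp [plen], hq,
    Rays.seg_add (show (-1 : ℤ) ≤ -1 + (L : ℤ) by omega)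
      (show -1 + (L : ℤ) ≤ (b : ℤ) + n by omega)] at h1
  have es : seg t γ (-((a : ℤ) + 1) + n) ((b : ℤ) + n) = seg t γ (-1 + (L : ℤ)) ((b : ℤ) + n) := by
    rw [hL]
  linarith

/-- Distinct objects: one of them avoids an entrance edge of the other. -/
theorem avoid_of_ne (hG : GoodG κ t) (hlev : cL < cR - R) (h : Obj t k B B' cL cR R γ n lo hi c₀)
    (h' : Obj t k B B' cL cR R γ' m lo' hi' c₀') (hne : key γ n ≠ key γ' m) :
    (¬Uses γ' (γ (-1)) (γ 0) ∨ ¬Uses γ' (γ (n - 1)) (γ n)) ∨
      (¬Uses γ (γ' (-1)) (γ' 0) ∨ ¬Uses γ (γ' (m - 1)) (γ' m)) := by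
  by_contra hcon
  simp only [not_or, not_not] at hcon
  obtain ⟨⟨u0, u1⟩, v0, v1⟩ := hcon
  obtain ⟨rfl, he⟩ := h.eq_of_uses hG hlev h' u0 u1 v0 v1
  have := h.pos
  exact hne (by simp only [key, he (-1) le_rfl (by omega), he 0 (by omega) (by omega),
    he (n - 1) (by omega) (by omega), he n (by omega) le_rfl])

/-- A rigid object is not in the class of a line avoiding one of its entrance edges. -/
theorem not_same (hN : NiceG κ t) (hκ : 0 < κ) (hδ : 0 < δ)
    (h : Obj t k B B' cL cR R γ n lo hi c₀)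
    (hR : Rig t δ γ n) (hγ' : IsBigeodesic t γ')
    (hav : ¬Uses γ' (γ (-1)) (γ 0) ∨ ¬Uses γ' (γ (n - 1)) (γ n)) : ¬SameClass t γ γ' := by
  rcases hav with hav | hav
  · exact rigid_class hN hκ hδ h.line hγ' (rigid_first hN.good.nonneg h hR)
      fun i hi => hav ⟨i, hi⟩
  · intro hs
    refine rigid_class hN hκ hδ (h.line.reindex n) hγ' (rigid_last hN.good.nonneg h hR)
      (fun i hi => hav ⟨i, ?_⟩)
      (sameClass_trans (sameClass_symm (.inl (bd2_reLine h.line hN.good.nonneg n))) hs)
    simpa [show (-1 : ℤ) + n = n - 1 by ring] using hi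

theorem wVar_comm (f g : V → ℝ) {u v : V} (w : grid.Walk u v) :
    wVar (fun z => f z - g z) w = wVar (fun z => g z - f z) w := by
  refine congrArg List.sum (List.map_congr_left fun d _ => ?_)
  rw [← abs_neg]
  ring_nf

/-- Rays in the order of their exit positions: their consecutive differences vary little along a
walk. -/
theorem tv_le {S : Set Edge} {m : ℕ} (h0 : ∀ e, 0 ≤ t e) (r : Fin (m + 1) → ℕ → V)
    (hr : ∀ i, IsRayIn t S (r i)) {u v : V} (Γ : grid.Walk u v) (hΓ : WalkIn S Γ)
    (hc : ∀ i, ∀ z ∈ Γ.support, ConnIn S (r i 0) z)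
    (hord : ∃ᶠ N in atTop, Monotone fun i => exitPos N (r i)) :
    ∑ i : Fin m, wVar (fun z => bus t S (r i.castSucc) z - bus t S (r i.succ) z) Γ ≤
      6 * plen t Γ := by
  have hone : ∀ d ∈ Γ.darts,
      ∑ i : Fin m, |(bus t S (r i.castSucc) d.toProd.1 - bus t S (r i.succ) d.toProd.1) -
        (bus t S (r i.castSucc) d.toProd.2 - bus t S (r i.succ) d.toProd.2)| ≤
          6 * wt t d.toProd.1 d.toProd.2 := by
    intro d hd
    set x := d.toProd.1
    set y := d.toProd.2
    have hx : ∀ i, ConnIn S (r i 0) x := fun i => hc i _ (Γ.dart_fst_mem_support_of_mem_darts hd)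
    have hy : ∀ i, ConnIn S (r i 0) y := fun i => hc i _ (Γ.dart_snd_mem_support_of_mem_darts hd)
    have hxy : edgeOf x y ∈ S := hΓ d hd
    obtain ⟨f, hf⟩ : ∃ f : Fin (m + 1) → ℝ, f = fun i => bus t S (r i) x - bus t S (r i) y :=
      ⟨_, rfl⟩
    have hna : NoAlt f := by
      intro a b c e hab hbc hce
      have hr4 : ∀ i : Fin 4, IsRayIn t S (![r a, r b, r c, r e] i) :=
        Fin.forall_fin_succ.2 ⟨hr _, Fin.forall_fin_succ.2 ⟨hr _,
          Fin.forall_fin_two.2 ⟨hr _, hr _⟩⟩⟩
      have c4 : ∀ z, (∀ i, ConnIn S (r i 0) z) →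
          ∀ i : Fin 4, ConnIn S (![r a, r b, r c, r e] i 0) z := fun z hz =>
        Fin.forall_fin_succ.2 ⟨hz _, Fin.forall_fin_succ.2 ⟨hz _,
          Fin.forall_fin_two.2 ⟨hz _, hz _⟩⟩⟩
      have hord' := hord.mono fun N hN =>
        show exitPos N (r a) ≤ exitPos N (r b) ∧ exitPos N (r b) ≤ exitPos N (r c) ∧
          exitPos N (r c) ≤ exitPos N (r e) from ⟨hN hab.le, hN hbc.le, hN hce.le⟩
      have h1 := bus_noAlt_box h0 ![r a, r b, r c, r e] hr4 x y (c4 x hx) (c4 y hy) hord'
      have h2 := bus_noAlt_box h0 ![r a, r b, r c, r e] hr4 y x (c4 y hy) (c4 x hx) hord'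
      simp only [Matrix.cons_val_zero, Matrix.cons_val_one, Matrix.cons_val] at h1 h2
      rw [hf]
      refine ⟨h1, ?_⟩
      simp only [min_le_iff, le_max_iff] at h2 ⊢
      rcases h2 with (o | o) | (o | o)
      · exact Or.inl (Or.inl (by linarith))
      · exact Or.inr (Or.inl (by linarith))
      · exact Or.inl (Or.inr (by linarith))
      · exact Or.inr (Or.inr (by linarith))
    have habs : ∀ i, |f i| ≤ wt t x y := fun i => by
      rw [hf]
      have hconn : ConnIn S x y := Rays.connIn_adj d.adj hxy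
      exact (Rays.bus_lip h0 (hr i) (hx i) hconn).trans (TS_le_wt h0 d.adj hxy)
    have hM0 : 0 ≤ wt t x y := h0 _
    have := windows_le_of_noAlt f hna (-wt t x y) (wt t x y) (by linarith) (fun i => (abs_le.1 (habs i)).1)
      (fun i => (abs_le.1 (habs i)).2) Finset.univ Fin.castSucc Fin.succ
      (fun i _ j _ hij => by simp [Fin.le_def]; omega)
    refine le_trans (le_of_eq (Finset.sum_congr rfl fun i _ => ?_)) (this.trans (by linarith))
    rw [hf]
    congr 1
    ring
  calc ∑ i : Fin m, wVar (fun z => bus t S (r i.castSucc) z - bus t S (r i.succ) z) Γ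
      = (Γ.darts.map fun d => ∑ i : Fin m,
          |(bus t S (r i.castSucc) d.toProd.1 - bus t S (r i.succ) d.toProd.1) -
            (bus t S (r i.castSucc) d.toProd.2 - bus t S (r i.succ) d.toProd.2)|).sum := by
        unfold wVar
        induction Γ.darts with
        | nil => simp
        | cons d l ih =>
          simp only [List.map_cons, List.sum_cons, Finset.sum_add_distrib]
          rw [← ih]
    _ ≤ (Γ.darts.map fun d => 6 * wt t d.toProd.1 d.toProd.2).sum := List.sum_le_sum hone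
    _ = 6 * plen t Γ := by rw [plen, ← List.sum_map_mul_left]

/-- In one configuration the rigid objects of two levels are linearly many. -/
theorem card_obj_le (hN : NiceG κ t) (hκ : 0 < κ) (hδ : 0 < δ)
    (hlev : cL < cR - R) {u v : V} (Γ : grid.Walk u v) (hΓ : WalkIn (outE B') Γ)
    (hcov : ∀ z, OnBd (B' + 1) z → z ∈ Γ.support) (O : Finset ((V × V) × (V × V)))
    (hO : ∀ o ∈ O, ∃ γ n lo hi c₀, Obj t k B B' cL cR R γ n lo hi c₀ ∧ Rig t δ γ n ∧ key γ n = o) :
    δ * O.card ≤ 2 * δ + 24 * plen t Γ := by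
  classical
  have h0 := hN.good.nonneg
  choose! γ n lo hi c₀ hobj hrig hkey using hO
  have hthru : ∀ o, ∃ a b, o ∈ O → Thru B' (γ o) a b ∧ a < -1 ∧ n o < b := fun o => by
    by_cases ho : o ∈ O
    · obtain ⟨a, b, h, hm⟩ := exists_thru (hobj o ho).line.inj (hobj o ho).line.adj (hobj o ho).mem
      exact ⟨a, b, fun _ => ⟨h, (hm _ (hobj o ho).mem₀).1, (hm _ (hobj o ho).mem₂).2⟩⟩
    · exact ⟨0, 0, fun h => absurd h ho⟩
  choose a b hab using hthru
  set pA : ℤ → O → ℤ := fun N o => exitPos N (bwd (γ o) (a o))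
  set pB : ℤ → O → ℤ := fun N o => exitPos N (fwd (γ o) (b o))
  have hpos : ∀ o ∈ O, 0 < n o := fun o ho => (hobj o ho).pos
  have halt : ∀ o q : O, o ≠ q → ∀ᶠ N in atTop, Alt (pA N o) (pB N o) (pA N q) (pB N q) := by
    have shift : ∀ o : O, ∀ᶠ N in atTop, pA N o = exitPos N (bwd (γ o) 0) ∧
        pB N o = exitPos N (fwd (γ o) 0) := fun o => by
      obtain ⟨-, h1, h2⟩ := hab o o.2
      have hl := (hobj o o.2).line
      have := hpos o o.2
      have e1 : Rays.tail (-a o).toNat (bwd (γ o) 0) = bwd (γ o) (a o) := by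
        funext i; simp only [Rays.tail, bwd]; congr 1; omega
      have e2 : Rays.tail (b o).toNat (fwd (γ o) 0) = fwd (γ o) (b o) := by
        funext i; simp only [Rays.tail, fwd]; congr 1; omega
      filter_upwards [exitPos_tail (bwd_injective hl 0) (-a o).toNat,
        exitPos_tail (fwd_injective hl 0) (b o).toNat] with N hA hB
      rw [e1] at hA
      rw [e2] at hB
      exact ⟨hA, hB⟩
    intro o q hne
    have hns : ¬SameClass t (γ o) (γ q) := by
      rcases avoid_of_ne hN.good hlev (hobj o o.2) (hobj q q.2)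
        (by rw [hkey o o.2, hkey q q.2]; exact fun h => hne (Subtype.ext h)) with h | h
      · exact not_same hN hκ hδ (hobj o o.2) (hrig o o.2) (hobj q q.2).line h
      · exact fun hs => not_same hN hκ hδ (hobj q q.2) (hrig q q.2)
          (hobj o o.2).line h (sameClass_symm hs)
    filter_upwards [shift o, shift q, eventually_alt hN (hobj o o.2).line (hobj q q.2).line hns]
      with N h1 h2 h3
    rw [h1.1, h1.2, h2.1, h2.2]
    exact h3
  -- one order and one set of orientations at infinitely many boxes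
  have hfr : ∃ (π : Fin (Fintype.card O) ≃ O) (P : Finset O), ∃ᶠ N in (atTop : Filter ℤ),
      (∀ i j, i ≤ j → min (pA N (π i)) (pB N (π i)) ≤ min (pA N (π j)) (pB N (π j)) ∧
        max (pA N (π i)) (pB N (π i)) ≤ max (pA N (π j)) (pB N (π j))) ∧
      ∀ o, o ∈ P ↔ pA N o ≤ pB N o := by
    by_contra hne
    simp only [not_exists, not_frequently] at hne
    have hall : ∀ᶠ N in (atTop : Filter ℤ), ∀ o q : O, o ≠ q →
        Alt (pA N o) (pB N o) (pA N q) (pB N q) :=
      eventually_all.2 fun o => eventually_all.2 fun q => by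
        by_cases h : o = q
        · exact Eventually.of_forall fun N h' => absurd h h'
        · exact (halt o q h).mono fun N hN _ => hN
    obtain ⟨N, hN1, hN2⟩ :=
      (hall.and (eventually_all.2 fun π => eventually_all.2 fun P => hne π P)).exists
    obtain ⟨e, -⟩ : ∃ e : O ≃ Fin (Fintype.card O), True := ⟨Fintype.equivFin O, trivial⟩
    obtain ⟨f, hf⟩ : ∃ f : Fin (Fintype.card O) → ℤ ×ₗ ℤ, f = fun i =>
        toLex (min (pA N (e.symm i)) (pB N (e.symm i)), max (pA N (e.symm i)) (pB N (e.symm i))) :=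
      ⟨_, rfl⟩
    refine hN2 ((Tuple.sort f).trans e.symm) (Finset.univ.filter fun o => pA N o ≤ pB N o)
      ⟨fun i j hij => ?_, fun o => by simp⟩
    have hm := Tuple.monotone_sort f hij
    simp only [Function.comp, hf, Equiv.trans_apply, Prod.Lex.toLex_le_toLex] at hm ⊢
    rcases eq_or_ne (e.symm (Tuple.sort f i)) (e.symm (Tuple.sort f j)) with he | he
    · simp only [hf] at he
      simp only [he]
      exact ⟨le_rfl, le_rfl⟩
    · simp only [hf] at he
      have := hN1 _ _ he
      unfold Alt at this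
      omega
  obtain ⟨π, P, hπ⟩ := hfr
  -- one orientation
  have hclass : ∀ Q : Finset (Fin (Fintype.card O)),
      ((∀ i ∈ Q, π i ∈ P) ∨ ∀ i ∈ Q, π i ∉ P) →
      δ * Q.card ≤ δ + 12 * plen t Γ := by
    intro Q hQ
    have hW := plen_nonneg h0 Γ
    rcases Nat.eq_zero_or_pos Q.card with hc | hc
    · rw [hc]; push_cast; linarith
    obtain ⟨m, hm⟩ := Nat.exists_eq_succ_of_ne_zero hc.ne'
    obtain ⟨g, hg⟩ : ∃ g : Fin (m + 1) → O, g = fun i => π (Q.orderEmbOfFin hm i) := ⟨_, rfl⟩
    have hmem : ∀ i, (∀ j ∈ Q, π j ∈ P) → g i ∈ P := fun i h => by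
      rw [hg]; exact h _ (Finset.orderEmbOfFin_mem Q hm i)
    have hmem' : ∀ i, (∀ j ∈ Q, π j ∉ P) → g i ∉ P := fun i h => by
      rw [hg]; exact h _ (Finset.orderEmbOfFin_mem Q hm i)
    have hord : ∃ᶠ N in (atTop : Filter ℤ),
        (Monotone fun i => pA N (g i)) ∧ Monotone fun i => pB N (g i) := by
      refine hπ.mono fun N hN => ?_
      have key : ∀ i j, i ≤ j → pA N (g i) ≤ pA N (g j) ∧ pB N (g i) ≤ pB N (g j) := by
        intro i j hij
        have h1 := hN.1 _ _ ((Q.orderEmbOfFin hm).monotone hij)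
        rcases hQ with hq | hq
        · have a1 := (hN.2 _).1 (hmem i hq)
          have a2 := (hN.2 _).1 (hmem j hq)
          simp only [hg] at a1 a2 ⊢
          omega
        · have a1 := mt (hN.2 _).2 (hmem' i hq)
          have a2 := mt (hN.2 _).2 (hmem' j hq)
          simp only [hg] at a1 a2 ⊢
          omega
      exact ⟨fun i j hij => (key i j hij).1, fun i j hij => (key i j hij).2⟩
    have hstartA : ∀ i, OnBd (B' + 1) (bwd (γ (g i)) (a (g i)) 0) := fun i => by
      simpa [bwd] using (hab _ (g i).2).1.enter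
    have hstartB : ∀ i, OnBd (B' + 1) (fwd (γ (g i)) (b (g i)) 0) := fun i => by
      simpa [fwd] using (hab _ (g i).2).1.leave
    have hconn : ∀ z, OnBd (B' + 1) z → ∀ w ∈ Γ.support, ConnIn (outE B') z w := fun z hz w hw =>
      ConnIn.trans (ConnIn.symm ⟨Γ.takeUntil z (hcov z hz),
        fun d hd => hΓ d (Γ.darts_takeUntil_subset_darts _ hd)⟩)
        ⟨Γ.takeUntil w hw, fun d hd => hΓ d (Γ.darts_takeUntil_subset_darts _ hd)⟩
    have sA := tv_le h0 (fun i => bwd (γ (g i)) (a (g i)))
      (fun i => (hab _ (g i).2).1.ray_bwd (hobj _ (g i).2).line h0) Γ hΓ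
      (fun i => hconn _ (hstartA i)) (hord.mono fun N hN => hN.1)
    have sB := tv_le h0 (fun i => fwd (γ (g i)) (b (g i)))
      (fun i => (hab _ (g i).2).1.ray_fwd (hobj _ (g i).2).line h0) Γ hΓ
      (fun i => hconn _ (hstartB i)) (hord.mono fun N hN => hN.2)
    have hlow : (m : ℝ) * δ ≤ 6 * plen t Γ + 6 * plen t Γ := by
      refine le_trans ?_ (add_le_add sA sB)
      rw [← Finset.sum_add_distrib]
      calc (m : ℝ) * δ = ∑ _i : Fin m, δ := by simp
        _ ≤ _ := Finset.sum_le_sum fun i _ => ?_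
      have hne : g i.castSucc ≠ g i.succ := by
        rw [hg]
        exact fun h => (Fin.castSucc_lt_succ (i := i)).ne
          ((Q.orderEmbOfFin hm).injective (π.injective h))
      generalize g i.castSucc = p at hne ⊢
      generalize g i.succ = q at hne ⊢
      rcases avoid_of_ne hN.good hlev (hobj p p.2) (hobj q q.2)
        (by rw [hkey p p.2, hkey q q.2]; exact fun h => hne (Subtype.ext h)) with hav | hav
      · exact margin h0 (hobj p p.2) (hrig p p.2) (hab p p.2).1 (hab p p.2).2 (hobj q q.2).line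
          (hab q q.2).1 hav Γ hΓ hcov
      · have := margin h0 (hobj q q.2) (hrig q q.2) (hab q q.2).1 (hab q q.2).2 (hobj p p.2).line
          (hab p p.2).1 hav Γ hΓ hcov
        rw [wVar_comm (busA t B' _ _), wVar_comm (busB t B' _ _)] at this
        exact this
    rw [hm, Nat.succ_eq_add_one, Nat.cast_add_one]
    linarith
  have h1 := hclass (Finset.univ.filter fun i => π i ∈ P)
    (.inl fun i hi => (Finset.mem_filter.1 hi).2)
  have h2 := hclass (Finset.univ.filter fun i => π i ∉ P)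
    (.inr fun i hi => (Finset.mem_filter.1 hi).2)
  have hcard : (Finset.univ.filter fun i => π i ∈ P).card +
      (Finset.univ.filter fun i => π i ∉ P).card = O.card := by
    rw [Finset.card_filter_add_card_filter_not, Finset.card_univ, Fintype.card_fin,
      Fintype.card_coe]
  rw [← hcard, Nat.cast_add]
  linarith

end Vale.Agent.P158.ChordCount
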