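import Vale.Agent.P158.ChordCount.Count
import Vale.Agent.P158.MatchAll
import Vale.Agent.P158.Units

/-!
Chord count: lowering the two entrance edges turns an object into a rigid one, and the expected
number of the objects of two levels is linear in the radius of the box.
-/

open MeasureTheory Filter Topology
open scoped ENNReal

namespace Vale.Agent.P158.ChordCount

open Rays (seg)

variable {δ r₀ r₁ : ℝ} {t : Conf} {k B B' cL cR : ℤ} {R : ℕ}

/-- An ordered pair of oriented edges. -/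
abbrev Key := (V × V) × (V × V)

/-- The left edge of a key. -/
def eL (o : Key) : Edge := edgeOf o.1.1 o.1.2

/-- The right edge of a key. -/
def eR (o : Key) : Edge := edgeOf o.2.1 o.2.2

/-- An object with heavy entrance edges and the given key. -/
def heavySite (r₁ : ℝ) (k B B' cL cR : ℤ) (R : ℕ) (o : Key) : Set Conf :=
  {t | r₁ ≤ t (eL o) ∧ r₁ ≤ t (eR o) ∧
    ∃ γ n lo hi c₀, Obj t k B B' cL cR R γ n lo hi c₀ ∧ key γ n = o}

/-- A rigid object with the given key. -/
def rigidSite (δ : ℝ) (k B B' cL cR : ℤ) (R : ℕ) (o : Key) : Set Conf :=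
  {t | t ∈ NN ∧ ∃ γ n lo hi c₀, Obj t k B B' cL cR R γ n lo hi c₀ ∧ Rig t δ γ n ∧ key γ n = o}

theorem Obj.transfer {t t' : Conf} {γ : ℤ → V} {n lo hi c₀ : ℤ}
    (h : Obj t k B B' cL cR R γ n lo hi c₀) (hl : IsBigeodesic t' γ) :
    Obj t' k B B' cL cR R γ n lo hi c₀ :=
  { h with line := hl }

theorem seg_update {γ : ℤ → V} (hinj : Function.Injective γ) (hadj : ∀ i, Adj (γ i) (γ (i + 1)))
    {m i j : ℤ} (hm : i ≤ m ∧ m < j) (t : Conf) (x : ℝ) :
    seg (Function.update t (edgeOf (γ m) (γ (m + 1))) x) γ i j =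
      seg t γ i j - (t (edgeOf (γ m) (γ (m + 1))) - x) := by
  have hterm : ∀ l, wt (Function.update t (edgeOf (γ m) (γ (m + 1))) x) (γ l) (γ (l + 1)) =
      wt t (γ l) (γ (l + 1)) - if l = m then t (edgeOf (γ m) (γ (m + 1))) - x else 0 := by
    intro l
    by_cases hl : l = m
    · subst hl
      simp [wt]
    · have hne : edgeOf (γ l) (γ (l + 1)) ≠ edgeOf (γ m) (γ (m + 1)) := fun he => by
        rcases (edgeOf_eq_iff (hadj l) (hadj m)).1 he with ⟨h, -⟩ | ⟨h, h'⟩
        · exact hl (hinj h)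
        · have := hinj h; have := hinj h'; omega
      simp [wt, Function.update_of_ne hne, hl]
  simp only [Rays.seg, hterm, Finset.sum_sub_distrib, Finset.sum_ite_eq', Finset.mem_Ico, hm,
    and_self, if_true]

/-- Lowering both entrance edges of an object makes both rigid. -/
theorem lower_both {o : Key} (hr₀ : r₀ ≤ r₁) (h0 : ∀ f, 0 ≤ t f) (hδ : δ ≤ r₁ - r₀)
    (ht : t ∈ heavySite r₁ k B B' cL cR R o) {x y : ℝ} (hx : x ∈ Set.Icc 0 r₀)
    (hy : y ∈ Set.Icc 0 r₀) :
    Function.update (Function.update t (eL o) x) (eR o) y ∈ rigidSite δ k B B' cL cR R o := by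
  obtain ⟨hL, hR, γ, n, lo, hi, c₀, h, rfl⟩ := ht
  have hinj := h.line.inj
  have hadj := h.line.adj
  have hn := h.pos
  obtain ⟨e, he⟩ : ∃ e : Edge, e = eL (key γ n) := ⟨_, rfl⟩
  obtain ⟨e', he'⟩ : ∃ e : Edge, e = eR (key γ n) := ⟨_, rfl⟩
  rw [← he] at hL ⊢
  rw [← he'] at hR ⊢
  have ee : e = edgeOf (γ (-1)) (γ (-1 + 1)) := by simp [he, eL, key]
  have ee' : e' = edgeOf (γ (n - 1)) (γ (n - 1 + 1)) := by simp [he', eR, key]
  have hne : e' ≠ e := by
    rw [ee, ee']
    intro h'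
    rcases (edgeOf_eq_iff (hadj _) (hadj _)).1 h' with ⟨h1, -⟩ | ⟨h1, h2⟩
    · have := hinj h1; omega
    · have := hinj h1; have := hinj h2; omega
  set t₁ := Function.update t e x with ht₁
  set t₂ := Function.update t₁ e' y with ht₂
  have he₁ : t₁ e' = t e' := Function.update_of_ne hne _ _
  have dx : r₁ - r₀ ≤ t e - x := by linarith [hx.2]
  have dy : r₁ - r₀ ≤ t e' - y := by linarith [hy.2]
  have h1nn : ∀ f, 0 ≤ t₁ f := fun f => by
    rcases eq_or_ne f e with rfl | hf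
    · rw [ht₁, Function.update_self]; exact hx.1
    · rw [ht₁, Function.update_of_ne hf]; exact h0 f
  have h2nn : ∀ f, 0 ≤ t₂ f := fun f => by
    rcases eq_or_ne f e' with rfl | hf
    · rw [ht₂, Function.update_self]; exact hy.1
    · rw [ht₂, Function.update_of_ne hf]; exact h1nn f
  have hline : IsBigeodesic t₂ γ := by
    refine Rays.bigeodesic_lower h.line h0 h2nn (F := {e, e'}) (fun f hf => ?_) (fun f => ?_) ?_
    · simp only [Finset.mem_insert, Finset.mem_singleton, not_or] at hf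
      rw [ht₂, Function.update_of_ne hf.2, ht₁, Function.update_of_ne hf.1]
    · rcases eq_or_ne f e' with rfl | hf'
      · rw [ht₂, Function.update_self]; linarith
      rw [ht₂, Function.update_of_ne hf']
      rcases eq_or_ne f e with rfl | hf
      · rw [ht₁, Function.update_self]; linarith
      · rw [ht₁, Function.update_of_ne hf]
    · simp only [Finset.mem_insert, Finset.mem_singleton, forall_eq_or_imp, forall_eq]
      exact ⟨⟨_, ee⟩, ⟨_, ee'⟩⟩
  refine ⟨h2nn, γ, n, lo, hi, c₀, h.transfer hline, ?_, rfl⟩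
  intro i j u v p hi' hj hu hv hav
  subst hu hv
  have hs₂ : seg t₂ γ i j = seg t γ i j - (t e - x) - (t e' - y) := by
    rw [← he₁, ht₂, ee', seg_update hinj hadj ⟨by omega, by omega⟩ t₁ y, ← ee', ht₁, ee,
      seg_update hinj hadj ⟨by omega, by omega⟩ t x]
  have hT : seg t γ i j ≤ plen t p.bypass := by
    rw [← Rays.bigeo_T h.line h0 (show i ≤ j by omega)]
    exact T_le h0 _
  have hb := plen_bypass_le h2nn p
  -- the swapped order of the two updates
  have hsw : t₂ = Function.update (Function.update t e' y) e x := by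
    rw [ht₂, ht₁, Function.update_comm hne.symm]
  have key₁ : ∀ {f : Edge}, edgeOf (γ (-1)) (γ 0) = f ∨ edgeOf (γ (n - 1)) (γ n) = f →
      WalkIn {f}ᶜ p → ∀ d ∈ p.bypass.darts, edgeOf d.toProd.1 d.toProd.2 ≠ f :=
    fun _ hp d hd => hp.bypass d hd
  rcases hav with hav | hav
  · have hf : edgeOf (γ (-1)) (γ 0) = e := by rw [ee, neg_add_cancel]
    rw [hf] at hav
    have h1 : plen t₂ p.bypass = plen (Function.update t e' y) p.bypass := by
      rw [hsw]
      exact Units.plen_update_of_avoid _ e x _ (key₁ (.inl hf) hav)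
    have h2 := Units.plen_update_path t e' (show y ≤ t e' by linarith [hy.2]) p.bypass
      p.bypass_isPath
    linarith
  · have hf : edgeOf (γ (n - 1)) (γ n) = e' := by rw [ee', sub_add_cancel]
    rw [hf] at hav
    have h1 : plen t₂ p.bypass = plen t₁ p.bypass := by
      rw [ht₂]
      exact Units.plen_update_of_avoid _ e' y _ (key₁ (.inr hf) hav)
    have h2 := Units.plen_update_path t e (show x ≤ t e by linarith [hx.2]) p.bypass
      p.bypass_isPath
    rw [← ht₁] at h2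
    linarith

/-- The rigid events are Borel. -/
theorem measurableSet_rigidSite (δ : ℝ) (k B B' cL cR : ℤ) (R : ℕ) (o : Key) :
    MeasurableSet (rigidSite δ k B B' cL cR R o) := by
  let C : ℤ → ℤ → ℤ → ℤ → Set (Conf × (ℤ → V)) := fun n lo hi c₀ =>
    {q | q.1 ∈ NN ∧ IsBigeodesic q.1 q.2} ∩
    ({q | (InSq B' (q.2 (-1)) ∧ InSq B' (q.2 0) ∧ InSq B' (q.2 (n - 1)) ∧ InSq B' (q.2 n)) ∧
      (lev k (q.2 (-1)) = cL - 1 ∧ lev k (q.2 0) = cL ∧ lev k (q.2 (n - 1)) = cR - 1 ∧
        lev k (q.2 n) = cR ∧ InSq B (q.2 c₀) ∧ lev k (q.2 lo) < cL - R - 1 ∧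
        cR < lev k (q.2 hi)) ∧
      (q.2 (-1) = o.1.1 ∧ q.2 0 = o.1.2 ∧ q.2 (n - 1) = o.2.1 ∧ q.2 n = o.2.2) ∧
      (lo ≤ -1 ∧ n ≤ hi ∧ 0 ≤ c₀ ∧ c₀ < n)} ∩
    ({q | ∀ m, (InSq B (q.2 m) → lo ≤ m ∧ m ≤ hi) ∧ (lo ≤ m → m < 0 → lev k (q.2 m) < cL) ∧
      (0 ≤ m → m ≤ hi → cL - R ≤ lev k (q.2 m)) ∧ (lo ≤ m → m < n → lev k (q.2 m) < cR) ∧
      (n ≤ m → m ≤ hi → cR - R ≤ lev k (q.2 m))} ∩
    {q | ∀ (i j : ℤ) (x y : V) (p : grid.Walk x y), i ≤ -1 → n ≤ j →
      (WalkIn {eL o}ᶜ p ∨ WalkIn {eR o}ᶜ p) → q.2 i = x → q.2 j = y →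
      seg q.1 q.2 i j + δ ≤ plen q.1 p}))
  have hcoord : ∀ i : ℤ, Continuous fun q : Conf × (ℤ → V) => q.2 i :=
    fun i => (continuous_apply i).comp continuous_snd
  have hclosed : ∀ n lo hi c₀, IsClosed (C n lo hi c₀) := by
    intro n lo hi c₀
    refine isClosed_isBigeodesic.inter (IsClosed.inter ?_ (IsClosed.inter ?_ ?_))
    · exact (isClosed_discrete {w : (V × V) × (V × V) × (V × V) × V |
        (InSq B' w.1.1 ∧ InSq B' w.1.2 ∧ InSq B' w.2.1.1 ∧ InSq B' w.2.1.2) ∧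
        (lev k w.1.1 = cL - 1 ∧ lev k w.1.2 = cL ∧ lev k w.2.1.1 = cR - 1 ∧
          lev k w.2.1.2 = cR ∧ InSq B w.2.2.2 ∧ lev k w.2.2.1.1 < cL - R - 1 ∧
          cR < lev k w.2.2.1.2) ∧
        (w.1.1 = o.1.1 ∧ w.1.2 = o.1.2 ∧ w.2.1.1 = o.2.1 ∧ w.2.1.2 = o.2.2) ∧
        (lo ≤ -1 ∧ n ≤ hi ∧ 0 ≤ c₀ ∧ c₀ < n)}).preimage
        (((hcoord (-1)).prodMk (hcoord 0)).prodMk (((hcoord (n - 1)).prodMk (hcoord n)).prodMk
          (((hcoord lo).prodMk (hcoord hi)).prodMk (hcoord c₀))))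
    · simp only [Set.ofPred_forall]
      exact isClosed_iInter fun m => (isClosed_discrete {v : V |
        (InSq B v → lo ≤ m ∧ m ≤ hi) ∧ (lo ≤ m → m < 0 → lev k v < cL) ∧
        (0 ≤ m → m ≤ hi → cL - R ≤ lev k v) ∧ (lo ≤ m → m < n → lev k v < cR) ∧
        (n ≤ m → m ≤ hi → cR - R ≤ lev k v)}).preimage (hcoord m)
    · simp only [Set.ofPred_forall]
      refine isClosed_iInter fun i => isClosed_iInter fun j => isClosed_iInter fun x =>
        isClosed_iInter fun y => isClosed_iInter fun p => isClosed_iInter fun _ =>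
        isClosed_iInter fun _ => isClosed_iInter fun _ => ?_
      have : {q : Conf × (ℤ → V) | q.2 i = x → q.2 j = y → seg q.1 q.2 i j + δ ≤ plen q.1 p}
          = (fun q => q.2 i) ⁻¹' {x}ᶜ ∪ (fun q => q.2 j) ⁻¹' {y}ᶜ ∪
            {q | seg q.1 q.2 i j + δ ≤ plen q.1 p} := by
        ext q
        simp only [Set.mem_ofPred_eq, Set.mem_union, Set.mem_preimage, Set.mem_compl_iff,
          Set.mem_singleton_iff]
        tauto
      rw [this]
      refine (((isClosed_discrete _).preimage (hcoord i)).union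
        ((isClosed_discrete _).preimage (hcoord j))).union (isClosed_le ?_ ?_)
      · exact (continuous_finsetSum _ fun l _ =>
          continuous_wt_apply continuous_fst (hcoord l) (hcoord (l + 1))).add continuous_const
      · exact (continuous_plen p).comp continuous_fst
  have e : rigidSite δ k B B' cL cR R o = ⋃ (n : ℤ) (lo : ℤ) (hi : ℤ) (c₀ : ℤ),
      {t | ∃ γ ∈ pathsFrom o.1.2, (t, γ) ∈ C n lo hi c₀} := by
    ext t
    simp only [Set.mem_iUnion, Set.mem_ofPred_eq, C, Set.mem_inter_iff]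
    constructor
    · rintro ⟨hnn, γ, n, lo, hi, c₀, h, hR, rfl⟩
      refine ⟨n, lo, hi, c₀, γ, ⟨rfl, h.line.adj⟩, ⟨hnn, h.line⟩,
        ⟨⟨h.mem₀, h.mem, h.mem₁, h.mem₂⟩,
          ⟨h.lev₀, h.first, h.lev₁, h.last, h.mid, h.lev_lo, h.lev_hi⟩, ⟨rfl, rfl, rfl, rfl⟩,
          ⟨h.lo_le, h.le_hi, h.pos₀, h.c₀_lt⟩⟩,
        fun m => ⟨h.only m, h.before m, h.after m, h.before₂ m, h.after₂ m⟩,
        fun i j x y p hi' hj hw hx hy => hR i j x y p hi' hj hx hy hw⟩
    · rintro ⟨n, lo, hi, c₀, γ, -, ⟨hnn, hl⟩, ⟨⟨a1, a2, a3, a4⟩,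
        ⟨b1, b2, b3, b4, b5, b6, b7⟩, ⟨c1, c2, c3, c4⟩, ⟨d1, d2, d3, d4⟩⟩, hw, hR⟩
      refine ⟨hnn, γ, n, lo, hi, c₀, ⟨hl, a1, a2, a3, a4, b1, b2, b3, b4, d1, d2,
        fun m => (hw m).1, d3, d4, b5, fun m => (hw m).2.1, fun m => (hw m).2.2.1,
        fun m => (hw m).2.2.2.1, fun m => (hw m).2.2.2.2, b6, b7⟩, ?_, ?_⟩
      · intro i j x y p hi' hj hx hy hav
        exact hR i j x y p hi' hj (by rwa [eL, eR, ← c1, ← c2, ← c3, ← c4]) hx hy
      · simp [key, c1, c2, c3, c4]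
  rw [e]
  exact MeasurableSet.iUnion fun n => MeasurableSet.iUnion fun lo => MeasurableSet.iUnion fun hi =>
    MeasurableSet.iUnion fun c₀ => measurableSet_exists_path (hclosed n lo hi c₀)

/-- The weights are almost surely nonnegative. -/
theorem ae_nn {G : Measure ℝ} (hG : LawGen G) : ∀ᵐ t ∂law G, t ∈ NN := by
  have := hG.prob
  have hx : ∀ᵐ x ∂G, x ∈ Set.Ici (0 : ℝ) := by
    rw [ae_mem_iff_measure_eq measurableSet_Ici.nullMeasurableSet, hG.supp, measure_univ]
  exact ae_all_iff.2 fun e =>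
    (measurePreserving_eval_infinitePi (fun _ : Edge => G) e).quasiMeasurePreserving.ae hx

/-- Lowering both edges: heavy objects are at most a constant times as likely as rigid ones. -/
theorem heavySite_le {G : Measure ℝ} (hG : LawGen G) (hr : r₀ < r₁) (O : Finset Key) :
    (∑ o ∈ O, law G (heavySite r₁ k B B' cL cR R o)) * G (Set.Icc 0 r₀) ^ 2 ≤
      ∑ o ∈ O, law G (rigidSite (r₁ - r₀) k B B' cL cR R o) := by
  have := hG.prob
  have : IsProbabilityMeasure (law G) := by unfold law; infer_instance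
  rw [Finset.sum_mul]
  refine Finset.sum_le_sum fun o _ => ?_
  set E := rigidSite (r₁ - r₀) k B B' cL cR R o
  set E₁ := {t : Conf | ∀ y ∈ Set.Icc 0 r₀, Function.update t (eR o) y ∈ E}
  have h1 : law G (heavySite r₁ k B B' cL cR R o) * G (Set.Icc 0 r₀) ≤ law G E₁ := by
    have hae : law G (heavySite r₁ k B B' cL cR R o) ≤
        law G (heavySite r₁ k B B' cL cR R o ∩ NN) := by
      refine measure_mono_ae ?_
      filter_upwards [ae_nn hG] with t ht using fun h => ⟨h, ht⟩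
    rw [← measure_toMeasurable (μ := law G) E₁]
    refine (mul_le_mul' hae le_rfl).trans (Units.measure_inter_le_of_lower (eL o)
      (measurableSet_toMeasurable _ _) ?_)
    rintro t ⟨ht, h0⟩ x hx
    exact subset_toMeasurable _ _ fun y hy => lower_both hr.le h0 le_rfl ht hx hy
  rw [pow_two, ← mul_assoc]
  exact (mul_le_mul' h1 le_rfl).trans (Units.measure_inter_le_of_lower (eR o)
    (measurableSet_rigidSite ..) fun t ht y hy => ht y hy)

/-- A pointwise bound on the number of rigid objects bounds their expected number. -/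
theorem rigidSite_sum_le {G : Measure ℝ} {f : Conf → ℝ≥0∞} (O : Finset Key)
    (hcard : ∀ᵐ t ∂law G, ∀ O' : Finset Key,
      (∀ o ∈ O', t ∈ rigidSite δ k B B' cL cR R o) → (O'.card : ℝ≥0∞) ≤ f t) :
    ∑ o ∈ O, law G (rigidSite δ k B B' cL cR R o) ≤ ∫⁻ t, f t ∂law G := by
  classical
  calc ∑ o ∈ O, law G (rigidSite δ k B B' cL cR R o)
      = ∫⁻ t, ∑ o ∈ O, (rigidSite δ k B B' cL cR R o).indicator 1 t ∂law G := by
        rw [lintegral_finsetSum _ fun o _ =>
          measurable_one.indicator (measurableSet_rigidSite ..)]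
        exact Finset.sum_congr rfl fun o _ =>
          (lintegral_indicator_one (measurableSet_rigidSite ..)).symm
    _ ≤ ∫⁻ t, f t ∂law G := by
        refine lintegral_mono_ae ?_
        filter_upwards [hcard] with t ht
        have hsum : ∑ o ∈ O, (rigidSite δ k B B' cL cR R o).indicator 1 t =
            ((O.filter fun o => t ∈ rigidSite δ k B B' cL cR R o).card : ℝ≥0∞) := by
          rw [← Finset.sum_boole]
          exact Finset.sum_congr rfl fun o _ => by simp [Set.indicator_apply]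
        rw [hsum]
        exact ht _ fun o ho => (Finset.mem_filter.1 ho).2

end Vale.Agent.P158.ChordCount
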