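import Vale.Agent.P158.Class2
import Vale.Agent.P158.Gen.Law

/-!
Chord count: lines crossing a left and a right level inside a box, and the fact that two of them
which contain each other's entrance edges cross both levels at the same edges.
-/

open MeasureTheory Filter Topology

namespace Vale.Agent.P158.ChordCount

open Rays (seg)

variable {κ δ : ℝ} {t : Conf}

/-- The line enters level `cL` for the first time at index `0` and level `cR` for the first time
at index `n`, seen between its first and last visit `lo` and `hi` of the box of radius `B`, stays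
above the level less `R` afterwards and visits the box at index `c₀` in between. The two entrance
edges lie in the box of radius `B'`. -/
structure Obj (t : Conf) (k B B' cL cR : ℤ) (R : ℕ) (γ : ℤ → V) (n lo hi c₀ : ℤ) : Prop where
  line : IsBigeodesic t γ
  mem₀ : InSq B' (γ (-1))
  mem : InSq B' (γ 0)
  mem₁ : InSq B' (γ (n - 1))
  mem₂ : InSq B' (γ n)
  lev₀ : lev k (γ (-1)) = cL - 1
  first : lev k (γ 0) = cL
  lev₁ : lev k (γ (n - 1)) = cR - 1
  last : lev k (γ n) = cR
  lo_le : lo ≤ -1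
  le_hi : n ≤ hi
  only : ∀ m, InSq B (γ m) → lo ≤ m ∧ m ≤ hi
  pos₀ : 0 ≤ c₀
  c₀_lt : c₀ < n
  mid : InSq B (γ c₀)
  before : ∀ m, lo ≤ m → m < 0 → lev k (γ m) < cL
  after : ∀ m, 0 ≤ m → m ≤ hi → cL - R ≤ lev k (γ m)
  before₂ : ∀ m, lo ≤ m → m < n → lev k (γ m) < cR
  after₂ : ∀ m, n ≤ m → m ≤ hi → cR - R ≤ lev k (γ m)
  lev_lo : lev k (γ lo) < cL - R - 1
  lev_hi : cR < lev k (γ hi)

/-- The entrance edges of the two levels. -/
def key (γ : ℤ → V) (n : ℤ) : (V × V) × (V × V) := ((γ (-1), γ 0), (γ (n - 1), γ n))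

/-- The path traverses the edge between `x` and `y`. -/
def Uses (γ : ℤ → V) (x y : V) : Prop := ∃ i, edgeOf (γ i) (γ (i + 1)) = edgeOf x y

/-- The piece of a path between two indices, as a walk. -/
theorem seg_walk (t : Conf) {γ : ℤ → V} (hadj : ∀ i, Adj (γ i) (γ (i + 1))) (i : ℤ) (L : ℕ) :
    ∃ p : grid.Walk (γ i) (γ (i + L)), plen t p = seg t γ i (i + L) ∧
      p.support = (List.range (L + 1)).map (fun m : ℕ => γ (i + m)) ∧
      ∀ S : Set Edge, (∀ m, i ≤ m → m < i + L → edgeOf (γ m) (γ (m + 1)) ∈ S) → WalkIn S p := by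
  obtain ⟨p, -, hw, hs, -, hS⟩ := exists_segment (t := t) (r := fwd γ i)
    (fun n => by simpa [fwd, add_assoc] using hadj (i + n)) (Nat.zero_le L)
  have e : fwd γ i 0 = γ i := by simp [fwd]
  have e' : fwd γ i L = γ (i + L) := rfl
  refine ⟨p.copy e e', ?_, ?_, fun S h => (hS S fun m _ hm => ?_).copy _ _⟩
  · rw [show plen t (p.copy e e') = plen t p by simp [plen], hw, rlen_zero,
      Rays.rlen_fwd, sub_zero]
  · rw [SimpleGraph.Walk.support_copy, hs]
    simp [fwd]
  · simpa [fwd, add_assoc] using h (i + m) (by omega) (by omega)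

/-- Two lines through two common vertices, in the same order, agree between them. -/
theorem two_common (hG : GoodG κ t) {γ γ' : ℤ → V} (hγ : IsBigeodesic t γ)
    (hγ' : IsBigeodesic t γ') {a b c d : ℤ} (hac : a ≤ c) (hbd : b ≤ d) (h1 : γ a = γ' b)
    (h2 : γ c = γ' d) :
    d - b = c - a ∧ ∀ i : ℤ, 0 ≤ i → i ≤ c - a → γ' (b + i) = γ (a + i) := by
  obtain ⟨L, rfl⟩ : ∃ L : ℕ, c = a + L := ⟨(c - a).toNat, by omega⟩
  obtain ⟨L', rfl⟩ : ∃ L : ℕ, d = b + L := ⟨(d - b).toNat, by omega⟩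
  obtain ⟨p, hp, hps, -⟩ := seg_walk t hγ.adj a L
  obtain ⟨q, hq, hqs, -⟩ := seg_walk t hγ'.adj b L'
  have h0 := hG.nonneg
  have e : q.copy h1.symm h2.symm = p := geodesic_unique hG.pos hG.tieFree (walkIn_univ _)
    (walkIn_univ _) (le_of_eq <| by
      rw [show plen t (q.copy h1.symm h2.symm) = plen t q by simp [plen], hq, ← T_eq_TS, h1, h2,
        Rays.bigeo_T hγ' h0 (by omega)])
    (le_of_eq <| by rw [hp, ← T_eq_TS, Rays.bigeo_T hγ h0 (by omega)])
  have hl : (List.range (L' + 1)).map (fun m : ℕ => γ' (b + m)) =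
      (List.range (L + 1)).map (fun m : ℕ => γ (a + m)) := by
    rw [← hqs, ← hps, ← e, SimpleGraph.Walk.support_copy]
  have hL : L' = L := by simpa using congrArg List.length hl
  subst hL
  refine ⟨by omega, fun i hi0 hi => ?_⟩
  have := List.map_inj_left.1 hl i.toNat (List.mem_range.2 (by omega))
  rwa [Int.toNat_of_nonneg hi0] at this

theorem uses_vertices {γ : ℤ → V} (hadj : ∀ i, Adj (γ i) (γ (i + 1))) {x y : V} (hxy : Adj x y)
    (h : Uses γ x y) : (∃ i, γ i = x) ∧ ∃ i, γ i = y := by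
  obtain ⟨i, hi⟩ := h
  rcases (edgeOf_eq_iff (hadj i) hxy).1 hi with ⟨h1, h2⟩ | ⟨h1, h2⟩
  · exact ⟨⟨_, h1⟩, ⟨_, h2⟩⟩
  · exact ⟨⟨_, h2⟩, ⟨_, h1⟩⟩

namespace Obj

variable {k B B' cL cR : ℤ} {R : ℕ} {γ γ' : ℤ → V} {n m lo hi c₀ lo' hi' c₀' : ℤ}

theorem pos (h : Obj t k B B' cL cR R γ n lo hi c₀) : 0 < n :=
  lt_of_le_of_lt h.pos₀ h.c₀_lt

/-- Between the entrances the level is bounded on both sides. -/
theorem bounds (h : Obj t k B B' cL cR R γ n lo hi c₀) {i : ℤ} (h₁ : -1 ≤ i) (h₂ : i ≤ n) :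
    cL - R - 1 ≤ lev k (γ i) ∧ lev k (γ i) ≤ cR := by
  refine ⟨?_, ?_⟩
  · rcases h₁.eq_or_lt with rfl | h₁
    · rw [h.lev₀]; omega
    · have := h.after i (by omega) (h₂.trans h.le_hi)
      omega
  · rcases h₂.eq_or_lt with rfl | h₂
    · exact h.last.le
    · exact (h.before₂ i (h.lo_le.trans h₁) h₂).le

/-- If each of two objects uses both entrance edges of the other, they are equal. -/
theorem eq_of_uses (hG : GoodG κ t) (hlev : cL < cR - R) (h : Obj t k B B' cL cR R γ n lo hi c₀)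
    (h' : Obj t k B B' cL cR R γ' m lo' hi' c₀') (u₀ : Uses γ' (γ (-1)) (γ 0))
    (u₁ : Uses γ' (γ (n - 1)) (γ n)) (v₀ : Uses γ (γ' (-1)) (γ' 0))
    (v₁ : Uses γ (γ' (m - 1)) (γ' m)) :
    n = m ∧ ∀ i : ℤ, -1 ≤ i → i ≤ n → γ' i = γ i := by
  have main : ∀ {γ γ' : ℤ → V} {n m lo hi c₀ lo' hi' c₀' : ℤ},
      Obj t k B B' cL cR R γ n lo hi c₀ → Obj t k B B' cL cR R γ' m lo' hi' c₀' →
      Uses γ' (γ (-1)) (γ 0) → Uses γ' (γ (n - 1)) (γ n) →
      ∃ b : ℤ, -1 ≤ b ∧ b + 1 ≤ m ∧ lo' ≤ b ∧ b + n + 1 ≤ hi' ∧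
        ∀ i, 0 ≤ i → i ≤ n + 1 → γ' (b + i) = γ (-1 + i) := by
    intro γ γ' n m lo hi c₀ lo' hi' c₀' h h' u₀ u₁
    obtain ⟨⟨b, hb⟩, -⟩ := uses_vertices h'.line.adj (by simpa using h.line.adj (-1)) u₀
    obtain ⟨-, ⟨d, hd⟩⟩ := uses_vertices h'.line.adj (by simpa using h.line.adj (n - 1)) u₁
    have hn := h.pos
    have hc : -1 ≤ c₀ ∧ c₀ ≤ n := ⟨by linarith [h.pos₀], h.c₀_lt.le⟩
    -- the common piece contains no end of the second window, and meets it
    have inside : ∀ u w : ℤ, u ≤ w →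
        (∀ x, u ≤ x → x ≤ w → ∃ i, -1 ≤ i ∧ i ≤ n ∧ γ' x = γ i) →
        (∃ x, u ≤ x ∧ x ≤ w ∧ γ' x = γ c₀) → lo' ≤ u ∧ w ≤ hi' := by
      intro u w huw himg ⟨x, x1, x2, hx⟩
      have hwin := h'.only x (by rw [hx]; exact h.mid)
      constructor <;> by_contra hh
      · obtain ⟨i, i1, i2, hi⟩ := himg lo' (by omega) (by omega)
        have := (h.bounds i1 i2).1
        have := h'.lev_lo
        rw [hi] at this
        omega
      · obtain ⟨i, i1, i2, hi⟩ := himg hi' (by omega) (by omega)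
        have := (h.bounds i1 i2).2
        have := h'.lev_hi
        rw [hi] at this
        omega
    have hbd : b ≤ d := by
      by_contra hbd
      obtain ⟨hdb, hi⟩ := two_common hG h.line (h'.line.rev) (show (-1 : ℤ) ≤ n by omega)
        (show -b ≤ -d by omega) (by simp [revLine, hb]) (by simp [revLine, hd])
      have hi' : ∀ x, d ≤ x → x ≤ b → γ' x = γ (b - x - 1) := fun x x1 x2 => by
        have := hi (b - x) (by omega) (by omega)
        simpa [revLine, show -1 + (b - x) = b - x - 1 by ring] using this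
      obtain ⟨w1, w2⟩ := inside d b (by omega)
        (fun x x1 x2 => ⟨_, by omega, by omega, hi' x x1 x2⟩)
        ⟨b - c₀ - 1, by omega, by omega, by rw [hi' _ (by omega) (by omega)]; congr 1; ring⟩
      rcases lt_or_ge d m with hdm | hdm
      · have := h'.before₂ d w1 hdm
        rw [hd, h.last] at this
        omega
      · have := h'.after₂ b (by omega) w2
        rw [hb, h.lev₀] at this
        omega
    obtain ⟨hdb, hi⟩ :=
      two_common hG h.line h'.line (show (-1 : ℤ) ≤ n by omega) hbd hb.symm hd.symm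
    obtain ⟨w1, w2⟩ := inside b d hbd
      (fun x x1 x2 => ⟨-1 + (x - b), by omega, by omega, by
        have := hi (x - b) (by omega) (by omega)
        rwa [show b + (x - b) = x by ring] at this⟩)
      ⟨b + (c₀ + 1), by omega, by omega, by rw [hi _ (by omega) (by omega)]; congr 1; ring⟩
    refine ⟨b, ?_, ?_, w1, by omega, fun i h1 h2 => hi i h1 (by omega)⟩
    · by_contra hb1
      have := h'.before (b + 1) (by omega) (by omega)
      rw [hi 1 zero_le_one (by omega)] at this
      simp only [neg_add_cancel, h.first] at this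
      omega
    · by_contra hb1
      have := h'.after₂ (b + 1) (by omega) (by omega)
      rw [hi 1 zero_le_one (by omega)] at this
      simp only [neg_add_cancel, h.first] at this
      omega
  obtain ⟨b, b1, b2, w1, w2, hb⟩ := main h h' u₀ u₁
  obtain ⟨b', b1', b2', w1', w2', hb'⟩ := main h' h v₀ v₁
  have hn := h.pos
  have e1 := hb' (b + 2) (by omega) (by omega)
  rw [show -1 + (b + 2) = b + 1 by ring, hb 1 zero_le_one (by omega)] at e1
  have := h.line.inj e1
  obtain rfl : b = -1 := by omega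
  obtain rfl : b' = -1 := by omega
  have e : ∀ i : ℤ, -1 ≤ i → i ≤ n → γ' i = γ i := fun i h1 h2 => by
    have := hb (i + 1) (by omega) (by omega)
    rwa [show -1 + (i + 1) = i by ring] at this
  have e' : ∀ i : ℤ, -1 ≤ i → i ≤ m → γ i = γ' i := fun i h1 h2 => by
    have := hb' (i + 1) (by omega) (by omega)
    rwa [show -1 + (i + 1) = i by ring] at this
  refine ⟨le_antisymm ?_ ?_, e⟩
  · by_contra hlt
    have := h.before₂ m (h.lo_le.trans (by omega)) (not_le.1 hlt)
    rw [e' m (by omega) le_rfl, h'.last] at this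
    omega
  · by_contra hlt
    have := h'.before₂ n (h'.lo_le.trans (by omega)) (not_le.1 hlt)
    rw [e n (by omega) le_rfl, h.last] at this
    omega

/-- Vertices near the centre are visited between the two entrances. -/
theorem between (h : Obj t k B B' cL cR R γ n lo hi c₀) (hk : k = 0 ∨ k = 1) {N : ℤ} (hNB : N ≤ B)
    (hL : cL ≤ -2 * N) (hR : 2 * N < cR - R) {i : ℤ} (hi' : InSq N (γ i)) : 0 ≤ i ∧ i < n := by
  have hB : InSq B (γ i) := by unfold InSq at hi' ⊢; omega
  obtain ⟨w1, w2⟩ := h.only i hB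
  have hl : -(2 * N) ≤ lev k (γ i) ∧ lev k (γ i) ≤ 2 * N := by
    obtain ⟨h1, h2, h3, h4⟩ := hi'
    rcases hk with rfl | rfl <;> simp only [lev] <;> omega
  constructor <;> by_contra hc
  · have := h.before i w1 (not_le.1 hc)
    omega
  · have := h.after₂ i (not_lt.1 hc) w2
    omega

end Obj

end Vale.Agent.P158.ChordCount
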